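import Vale.Agent.P307.R2.H533.EnlEx

/-!
Arbitrary independent families: hulls of the boundaries of the faces, and coherent isomorphisms.
-/

universe u v

open Set Cardinal Function

namespace Vale.Agent.P307.R2.H533

open Vale.Agent.P307.R2.H541 Vale.Agent.P307.R2.H541.PG

open scoped Classical

variable {ι : Type v} {C : Type u} {M : PG C}

variable (M) in
/-- Atomic tops over the boundaries of the arbitrary `m`-dimensional systems. -/
def GDI (ι : Type v) (m : ℕ) : Prop := ∀ (A : Finset ι → Set C) (s : Finset ι), s.card = m →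
  IFam M A s.ssubsets → IRef M A s.ssubsets → ∃ N, M.Atomic N (ibd A s)

variable {A A' D : Finset ι → Set C} {F F' : Finset (Finset ι)} {r s v : Finset ι} {Q B : Set C}

theorem GDI.md {m : ℕ} (hM : M.Calc) (h : GDI M ι (m + 1)) : Md M ι m := by
  intro A S c hk hE
  refine h A (insert c S) ?_ hE.fam (hE.ref hM)
  rw [Finset.card_insert_of_notMem hE.notMem, hk]

theorem atomic_self {N : Set C} (hN : N ∈ M.S) : M.Atomic N N :=
  ⟨hN, Subset.rfl, fun E hE hEc => ⟨E, hE, hEc, Isol.self Subset.rfl⟩⟩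

theorem ibd_singleton (A : Finset ι → Set C) (x : ι) : ibd A {x} = A ∅ := by
  ext c
  constructor
  · rintro ⟨r, hr, hc⟩
    rw [Finset.ssubset_singleton_iff] at hr
    subst hr
    exact hc
  · intro hc
    exact ⟨∅, Finset.ssubset_singleton_iff.2 rfl, hc⟩

theorem ssubsets_sub (hF : Down F) (hv : v ∈ F) : v.ssubsets ⊆ F := fun w hw =>
  hF.2 v hv w (Finset.mem_ssubsets.1 hw).1

/-- The hull of the boundary of a face. -/
theorem exists_hull (hA : IFam M A F) (hR : IRef M A F) (hv : v ∈ F) (hv0 : v.Nonempty)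
    (h : 2 ≤ v.card → GDI M ι v.card) : ∃ N, M.Atomic N (ibd A v) ∧ N ⊆ A v := by
  rcases Nat.lt_or_ge v.card 2 with h1 | h1
  · have h2 : v.card = 1 := by
      have := Finset.card_pos.2 hv0
      omega
    obtain ⟨x, rfl⟩ := Finset.card_eq_one.1 h2
    rw [ibd_singleton]
    exact ⟨A ∅, atomic_self (hA.mem ∅ hA.down.1), hA.mono _ hv ∅ (Finset.empty_subset _)⟩
  · have h2 := ssubsets_sub hA.down hv
    obtain ⟨N, hN⟩ := h h1 A v rfl (hA.sub (down_ssubsets hv0) h2) (hR.mono h2)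
    refine exists_atomic_in hN (hA.mem v hv) ?_
    rintro x ⟨r, hr, hx⟩
    exact hA.mono v hv r hr.1 hx

/-- A face is independent from the other faces over a hull of its boundary. -/
theorem ind_hull (hA : IFam M A F) (hR : IRef M A F) (hv : v ∈ F) (hF' : Down F')
    (hsub : F' ⊆ F) (hvF' : v ∉ F') {N : Set C} (hN : ibd A v ⊆ N) (hNv : N ⊆ A v) :
    M.Ind N (A v) (iun A F') := by
  intro D hD hDc E hE hEc
  have hDv : D ⊆ A v := fun x hx => (hD hx).elim (fun h => hNv h) id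
  obtain ⟨g, hg, h1⟩ := hR.toward hA.down v (E := D ∪ E) (union_subset
    (fun x hx => ⟨v, hv, hDv hx⟩) (hE.trans (iun_mono hsub))) (small_union hDc hEc)
  refine ⟨g, hg, fun a ha => (h1 v hv a (Or.inl ha) (hDv ha)).2 (Finset.Subset.refl v),
    fun b hb => ?_⟩
  obtain ⟨w, hw, hbw⟩ := hE hb
  refine hN ⟨w ∩ v, ?_, (h1 w (hsub hw) b (Or.inr hb) hbw).1⟩
  refine lt_of_le_of_ne Finset.inter_subset_right fun h2 => hvF' (hF'.2 w hw v ?_)
  rw [← h2]
  exact Finset.inter_subset_left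

/-- **Coherent isomorphisms of arbitrary independent families are locally elementary.** -/
theorem le_arb (hM : M.Calc) (hA : IFam M A F) (hR : IRef M A F) (hA' : IFam M A' F)
    (hR' : IRef M A' F) (hG : ∀ v ∈ F, 2 ≤ v.card → GDI M ι v.card) (f : C → C)
    (hf : ∀ v ∈ F, ∃ g ∈ M.G, (∀ a ∈ A v, g a = f a) ∧ g '' A v = A' v) :
    M.LE f (iun A F) := by
  have key : ∀ F', Down F' → F' ⊆ F → M.LE f (iun A F') := by
    refine down_induction (p := fun F' => F' ⊆ F → M.LE f (iun A F')) ?_ ?_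
    · intro hsub E hE hEc
      obtain ⟨g, hg, h1, -⟩ := hf ∅ (hsub (Finset.mem_singleton_self ∅))
      refine ⟨g, hg, fun a ha => ?_⟩
      obtain ⟨v, hv, hav⟩ := hE ha
      rw [Finset.mem_singleton] at hv
      subst hv
      exact h1 a hav
    intro F' w hF hwF hw ih hsub'
    have hsub : F' ⊆ F := (Finset.subset_insert w F').trans hsub'
    have hwF' : w ∈ F := hsub' (Finset.mem_insert_self w F')
    have hLE : M.LE f (iun A F') := ih hsub
    have hw0 : w.Nonempty := by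
      rw [Finset.nonempty_iff_ne_empty]
      rintro rfl
      exact hwF hF.1
    obtain ⟨N, hN, hNw⟩ := exists_hull hA hR hwF' hw0 (hG w hwF')
    obtain ⟨gw, hgw, hw1, hw2⟩ := hf w hwF'
    have hRF : IRef M A F' := hR.mono hsub
    -- the hull
    have hLN : M.LE f (iun A F' ∪ N) := by
      intro E₀ hE₀ hE₀c
      have hEN : #(E₀ ∩ N : Set C) < M.χ := small_inter_left _ hE₀c
      obtain ⟨b, hb, hbc, hiso'⟩ := hN.iso (E₀ ∩ N) inter_subset_right hEN
      have hiso := hiso'.lift (hRF.tv hF hwF hw) hb hbc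
      have hbu : b ⊆ iun A F' := hb.trans (ibd_sub_iun hw)
      obtain ⟨g, hg, h1⟩ := hLE ((E₀ ∩ iun A F') ∪ b) (union_subset inter_subset_right hbu)
        (small_union (small_inter_left _ hE₀c) hbc)
      obtain ⟨l, hl, h4, h5⟩ := hiso (g⁻¹ * gw) (M.G.mul_mem (M.G.inv_mem hg) hgw)
        (fun x hx => by
          have h6 : x ∈ A w := hNw (hN.sub (hb hx))
          rw [Equiv.Perm.mul_apply, hw1 x h6, ← h1 x (Or.inr hx), inv_ap]) (E₀ ∩ iun A F')
        inter_subset_right (small_inter_left _ hE₀c)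
      refine ⟨g * l, M.G.mul_mem hg hl, fun a ha => ?_⟩
      rcases hE₀ ha with h6 | h6
      · rw [Equiv.Perm.mul_apply, h4 a ⟨ha, h6⟩, h1 a (Or.inl ⟨ha, h6⟩)]
      · rw [Equiv.Perm.mul_apply, h5 a ⟨ha, h6⟩, Equiv.Perm.mul_apply, ap_inv, hw1 a (hNw h6)]
    -- the face over the hull
    have hind : M.Ind N (A w) (iun A F') := ind_hull hA hR hwF' hF hsub hwF hN.sub hNw
    have himg : gw '' ibd A w = ibd A' w := by
      ext x
      constructor
      · rintro ⟨a, ⟨r, hr, ha⟩, rfl⟩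
        obtain ⟨g, -, h1, h2⟩ := hf r (hA.down.2 w hwF' r hr.1)
        refine ⟨r, hr, ?_⟩
        rw [hw1 a (hA.mono w hwF' r hr.1 ha), ← h1 a ha, ← h2]
        exact mem_image_of_mem g ha
      · rintro ⟨r, hr, hx⟩
        obtain ⟨g, -, h1, h2⟩ := hf r (hA.down.2 w hwF' r hr.1)
        rw [← h2] at hx
        obtain ⟨a, ha, rfl⟩ := hx
        refine ⟨a, ⟨r, hr, ha⟩, ?_⟩
        rw [hw1 a (hA.mono w hwF' r hr.1 ha), h1 a ha]
    have hind' : M.Ind (gw '' N) (gw '' A w) (iun A' F') := by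
      rw [hw2]
      refine ind_hull hA' hR' hwF' hF hsub hwF ?_ ?_
      · rw [← himg]
        exact image_mono hN.sub
      · rw [← hw2]
        exact image_mono hNw
    have hcomp : ((gw⁻¹ : Equiv.Perm C) ∘ gw) = id := by
      funext a
      exact inv_ap gw a
    have hind2 := hind'.smul (M.G.inv_mem hgw)
    rw [← image_comp, hcomp, image_id, ← image_comp, hcomp, image_id] at hind2
    intro E₀ hE₀ hE₀c
    have hEw : #(E₀ ∩ A w : Set C) < M.χ := small_inter_left _ hE₀c
    obtain ⟨p, hpP, hpc, hp⟩ := hM.based hN.mem hEw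
    obtain ⟨g, hg, h1⟩ := hLN ((E₀ ∩ iun A F') ∪ p) (union_subset (inter_subset_right.trans
      subset_union_left) (hpP.trans subset_union_right))
      (small_union (small_inter_left _ hE₀c) hpc)
    have hkG : gw⁻¹ * g ∈ M.G := M.G.mul_mem (M.G.inv_mem hgw) hg
    have hkp : ∀ c ∈ p, (gw⁻¹ * g) c = c := fun c hc => by
      rw [Equiv.Perm.mul_apply, h1 c (Or.inr hc), ← hw1 c (hNw (hpP hc)), inv_ap]
    obtain ⟨k, hk, h2, h3, h4⟩ := hp (gw⁻¹ * g) hkG hkp (E₀ ∩ iun A F')
      (small_inter_left _ hE₀c) (hind.mono inter_subset_right inter_subset_right)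
      (hind2.mono inter_subset_right (by
        rintro _ ⟨c, hc, rfl⟩
        refine ⟨g c, ?_, rfl⟩
        rw [h1 c (Or.inl hc)]
        obtain ⟨v, hv, hcv⟩ := hc.2
        obtain ⟨gv, hgv, hv1, hv2⟩ := hf v (hsub hv)
        rw [← hv1 c hcv]
        refine ⟨v, hv, ?_⟩
        rw [← hv2]
        exact mem_image_of_mem gv hcv))
    refine ⟨gw * k, M.G.mul_mem hgw hk, fun a ha => ?_⟩
    have h5 := hE₀ ha
    rw [iun_insert] at h5
    rcases h5 with h5 | h5
    · rw [Equiv.Perm.mul_apply, h3 a ⟨ha, h5⟩, hw1 a h5]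
    · rw [Equiv.Perm.mul_apply, h4 a ⟨ha, h5⟩, Equiv.Perm.mul_apply, ap_inv,
        h1 a (Or.inl ⟨ha, h5⟩)]
  exact key F hA.down Finset.Subset.rfl

end Vale.Agent.P307.R2.H533
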