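import Vale.Agent.P307.R2.H533.UArb

/-!
Atomic tops over the boundaries of arbitrary independent systems, from atomic tops for the
extensions of systems by one model.
-/

universe u v

open Set Cardinal Function

namespace Vale.Agent.P307.R2.H533

open Vale.Agent.P307.R2.H541 Vale.Agent.P307.R2.H541.PG

open scoped Classical

variable {ι : Type v} {C : Type u} {M : PG C}

variable {A A' D P K : Finset ι → Set C} {F F' W : Finset (Finset ι)} {r s v : Finset ι}
  {Q B : Set C}

/-- **Enlargement of one face**, inside given models. -/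
theorem exists_blk_in (hA : IFam M A F) (hR : IRef M A F) (hr : r ∈ F) (hr0 : r.Nonempty)
    (hQ : iun A F ⊆ Q) (hB : B ∈ M.S) (hAB : A r ⊆ B) (hind : M.Ind (A r) B Q)
    (hMd : ∀ v ∈ F, r ⊂ v → Md M ι (v \ r).card) (hK : ∀ v ∈ F, r ⊂ v → K v ∈ M.S)
    (hKA : ∀ v ∈ F, r ⊂ v → A v ⊆ K v) (hKB : ∀ v ∈ F, r ⊂ v → B ⊆ K v)
    (hKm : ∀ v ∈ F, r ⊂ v → ∀ w, r ⊂ w → w ⊂ v → K w ⊆ K v) : ∃ P : Finset ι → Set C, P r = B ∧
      Blk M A P F r Q ∧ ∀ v ∈ F, r ⊂ v → P v ⊆ K v := by
  obtain ⟨c, hc⟩ := hr0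
  have key : ∀ F', Down F' → lowf F r ⊆ F' → F' ⊆ F → ∃ P : Finset ι → Set C, P r = B ∧
      (∀ v ∈ F, ¬ r ⊆ v → P v = A v) ∧ (∀ v ∈ F', r ⊂ v → M.Atomic (P v) (nbd A P r v)) ∧
        ∀ v ∈ F', r ⊂ v → P v ⊆ K v := by
    refine down_induction_from (p := fun F' => F' ⊆ F → ∃ P : Finset ι → Set C, P r = B ∧
      (∀ v ∈ F, ¬ r ⊆ v → P v = A v) ∧ (∀ v ∈ F', r ⊂ v → M.Atomic (P v) (nbd A P r v)) ∧
        ∀ v ∈ F', r ⊂ v → P v ⊆ K v) (down_lowf hA.down hr) ?_ ?_
    · intro _
      have h0 : ∀ v ∈ lowf F r, ¬ r ⊂ v := by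
        intro v hv h1
        rcases Finset.mem_insert.1 hv with rfl | hv
        · exact lt_irrefl _ h1
        · exact (Finset.mem_filter.1 hv).2 h1.1
      refine ⟨update A r B, update_self _ _ _, fun v hv h1 => ?_,
        fun v hv h1 => absurd h1 (h0 v hv), fun v hv h1 => absurd h1 (h0 v hv)⟩
      rw [update_of_ne]
      rintro rfl
      exact h1 (Finset.Subset.refl _)
    · intro F' w hF' h0 hwF' hw ih hsub'
      have hsub : F' ⊆ F := (Finset.subset_insert w F').trans hsub'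
      have hwF : w ∈ F := hsub' (Finset.mem_insert_self w F')
      have hrw : r ⊂ w := ssubset_of_notMem_lowf hwF fun h1 => hwF' (h0 h1)
      obtain ⟨P, h1, h2, h3, h3K⟩ := ih hsub
      have hE : Ext1 M (lnk A P r c) (w \ r) c := by
        refine ext1_lnk hc hrw.1 (hA.isys hR hwF) ?_ ?_ ?_ fun q hq1 hq2 =>
          h3 q (hw q hq2) hq1
        · rw [h1]
          exact hB
        · rw [h1]
          exact hAB
        · rw [h1]
          exact hind.mono Subset.rfl fun x hx => hQ ⟨w, hwF, hx⟩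
      obtain ⟨N, hN'⟩ := hMd w hwF hrw (lnk A P r c) (w \ r) c rfl hE
      have hdis : Disjoint (w \ r) r := Finset.sdiff_disjoint
      have hun : r ∪ (w \ r) = w := Finset.union_sdiff_of_subset hrw.1
      rw [ibd_lnk hc hdis fun q hq => (hA.isys hR hwF).mono (by rw [hun])
        (Finset.union_subset_union_right hq), hun] at hN'
      obtain ⟨N, hN, hNK⟩ := exists_atomic_in hN' (hK w hwF hrw) (by
        rintro x (hx | ⟨q, hq1, hq2, hx⟩)
        · exact hKA w hwF hrw hx
        · rcases eq_or_ne q r with rfl | hne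
          · rw [h1] at hx
            exact hKB w hwF hrw hx
          · have hrq : r ⊂ q := lt_of_le_of_ne hq1 hne.symm
            exact hKm w hwF hrw q hrq hq2 (h3K q (hw q hq2) hrq hx))
      refine ⟨update P w N, ?_, fun v hv h4 => ?_, fun v hv h4 => ?_, fun v hv h4 => ?_⟩
      · rw [update_of_ne hrw.ne]
        exact h1
      · rw [update_of_ne]
        · exact h2 v hv h4
        · rintro rfl
          exact h4 hrw.1
      · rcases Finset.mem_insert.1 hv with rfl | hv'
        · rw [update_self, ← nbd_congr (P := P) fun q hq => by rw [update_of_ne hq.ne]]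
          exact hN
        · have hvw : v ≠ w := by
            rintro rfl
            exact hwF' hv'
          rw [update_of_ne hvw, ← nbd_congr (P := P) fun q hq => by
            rw [update_of_ne]
            rintro rfl
            exact hwF' (hF'.2 v hv' _ hq.1)]
          exact h3 v hv' h4
      · rcases Finset.mem_insert.1 hv with rfl | hv'
        · rw [update_self]
          exact hNK
        · have hvw : v ≠ w := by
            rintro rfl
            exact hwF' hv'
          rw [update_of_ne hvw]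
          exact h3K v hv' h4
  obtain ⟨P, h1, h2, h3, h4⟩ := key F hA.down (lowf_sub hr) Finset.Subset.rfl
  refine ⟨P, h1, ⟨hA, hR, hr, hQ, ?_, ?_, ?_, h2, h3⟩, h4⟩
  · rw [h1]
    exact hB
  · rw [h1]
    exact hAB
  · rw [h1]
    exact hind

/-- Transitivity of atomicity. -/
theorem atomic_trans {N D X Y : Set C} (hN : M.Atomic N (D ∪ X)) (hD : M.Atomic D Y)
    (hYX : Y ⊆ X) (htv : M.TV Y X) : M.Atomic N X := by
  refine ⟨hN.mem, subset_union_right.trans hN.sub, fun E hE hEc => ?_⟩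
  obtain ⟨B, hB, hBc, hiso⟩ := hN.iso E hE hEc
  obtain ⟨b, hb, hbc, hb'⟩ := hD.iso (B ∩ D) inter_subset_right (small_inter_left _ hBc)
  have h1 : M.Isol b X (B ∩ D) := hb'.lift htv hb hbc
  have h2 : M.Isol B (X ∪ (B ∩ D)) E := hiso.mono (union_subset subset_union_right
    (inter_subset_right.trans subset_union_left))
  have h3 := h1.trans (small_inter_left _ hBc) (hb.trans hYX) hbc h2 (by
    intro x hx
    rcases hB hx with h | h
    · exact Or.inr ⟨hx, h⟩
    · exact Or.inl h) hBc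
  exact ⟨b ∪ (B ∩ X), union_subset (hb.trans hYX) inter_subset_right,
    small_union hbc (small_inter_left _ hBc), h3.subset subset_union_right⟩

theorem card_iun (h : ∀ v ∈ F, #(A v) ≤ M.χ) : #(iun A F) ≤ M.χ := by
  induction F using Finset.induction_on with
  | empty =>
    have h1 : iun A (∅ : Finset (Finset ι)) = ∅ := by
      ext x
      simp [iun]
    rw [h1, mk_eq_zero]
    exact zero_le
  | insert w F hw ih =>
    rw [iun_insert]
    exact (mk_union_le _ _).trans (add_le_of_le M.hχ (h w (Finset.mem_insert_self w F))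
      (ih fun v hv => h v (Finset.mem_insert_of_mem hv)))

variable (M) in
/-- The faces of `W` and hulls of the other ones. -/
structure Hull (A D : Finset ι → Set C) (s : Finset ι) (W : Finset (Finset ι)) : Prop where
  fam : IFam M A s.ssubsets
  ref : IRef M A s.ssubsets
  down : Down W
  subW : W ⊆ s.ssubsets
  one : ∀ v, v ⊂ s → v.card < 2 → v ∈ W
  eq : ∀ v ∈ W, D v = A v
  sub : ∀ v, v ⊂ s → D v ⊆ A v
  atomic : ∀ v, v ⊆ s → v ∉ W → M.Atomic (D v) (ibd D v)

namespace Hull

variable (h : Hull M A D s W)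

include h

theorem mem {v : Finset ι} (hv : v ⊆ s) : D v ∈ M.S := by
  by_cases h1 : v ∈ W
  · rw [h.eq v h1]
    exact h.fam.mem v (h.subW h1)
  · exact (h.atomic v hv h1).mem

theorem mono {v w : Finset ι} (hv : v ⊆ s) (hw : w ⊆ v) : D w ⊆ D v := by
  rcases eq_or_ne w v with rfl | hne
  · exact Subset.rfl
  have hwv : w ⊂ v := lt_of_le_of_ne hw hne
  by_cases h1 : v ∈ W
  · rw [h.eq v h1, h.eq w (h.down.2 v h1 w hw)]
    exact h.fam.mono v (h.subW h1) w hw
  · exact fun x hx => (h.atomic v hv h1).sub ⟨w, hwv, hx⟩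

theorem s_nonempty : s.Nonempty := by
  have h1 := h.fam.down.1
  rw [Finset.mem_ssubsets] at h1
  exact Finset.empty_ssubset.1 h1

theorem famD : IFam M D s.powerset :=
  ⟨down_powerset s, fun _ ht => h.mem (Finset.mem_powerset.1 ht),
    fun _ ht _ hr => h.mono (Finset.mem_powerset.1 ht) hr⟩

/-- The faces reflect into the hulls over the hulls. -/
theorem key (hM : M.Calc) (hG : ∀ v, v ⊂ s → 2 ≤ v.card → GDI M ι v.card) :
    ∀ E ⊆ iun A s.ssubsets, #E < M.χ → ∀ E' ⊆ iun D s.ssubsets, #E' < M.χ → ∃ g ∈ M.G,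
      (∀ e ∈ E', g e = e) ∧ ∀ v ∈ s.ssubsets, ∀ e ∈ E, e ∈ A v → g e ∈ D v := by
  have hdom : ∀ {F' : Finset (Finset ι)}, F' ⊆ s.ssubsets → iun D F' ⊆ iun A F' := by
    rintro F' hF' x ⟨v, hv, hx⟩
    exact ⟨v, hv, h.sub v (Finset.mem_ssubsets.1 (hF' hv)) hx⟩
  have main : ∀ F', Down F' → W ⊆ F' → F' ⊆ s.ssubsets → ∀ E ⊆ iun A F', #E < M.χ →
      ∀ E' ⊆ iun D F', #E' < M.χ → ∃ g ∈ M.G, (∀ e ∈ E', g e = e) ∧
        ∀ v ∈ F', ∀ e ∈ E, e ∈ A v → g e ∈ D v := by
    refine down_induction_from (p := fun F' => F' ⊆ s.ssubsets → ∀ E ⊆ iun A F', #E < M.χ →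
      ∀ E' ⊆ iun D F', #E' < M.χ → ∃ g ∈ M.G, (∀ e ∈ E', g e = e) ∧
        ∀ v ∈ F', ∀ e ∈ E, e ∈ A v → g e ∈ D v) h.down ?_ ?_
    · intro _ E hE hEc E' hE' hEc'
      refine ⟨1, M.G.one_mem, fun _ _ => rfl, fun v hv e he hev => ?_⟩
      rw [h.eq v hv]
      exact hev
    intro F' w hF' h0 hwF' hw ih hsub' E hE hEc E' hE' hEc'
    have hsub : F' ⊆ s.ssubsets := (Finset.subset_insert w F').trans hsub'
    have hwF : w ∈ s.ssubsets := hsub' (Finset.mem_insert_self w F')
    have hws : w ⊂ s := Finset.mem_ssubsets.1 hwF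
    have hwW : w ∉ W := fun h1 => hwF' (h0 h1)
    have hw2 : 2 ≤ w.card := by
      by_contra h1
      exact hwW (h.one w hws (by omega))
    have hw0 : w.Nonempty := Finset.card_pos.1 (by omega)
    have IH := ih hsub
    have hRF : IRef M A F' := h.ref.mono hsub
    obtain ⟨N, hN, hNw⟩ := exists_hull h.fam h.ref hwF hw0 fun _ => hG w hws hw2
    -- the pieces
    have hEr : E ∩ iun A F' ⊆ iun A F' := inter_subset_right
    have hErc : #(E ∩ iun A F' : Set C) < M.χ := small_inter_left _ hEc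
    have hE'r : E' ∩ iun D F' ⊆ iun D F' := inter_subset_right
    have hE'rc : #(E' ∩ iun D F' : Set C) < M.χ := small_inter_left _ hEc'
    have hac : #((E ∩ A w) ∪ (E' ∩ D w) : Set C) < M.χ :=
      small_union (small_inter_left _ hEc) (small_inter_left _ hEc')
    -- isolation of the part in the hull
    have htv : M.TV (ibd D w) (iun A F') := by
      intro y hy hyc z hz hzc
      have hyA : y ⊆ iun A F' := by
        intro x hx
        obtain ⟨q, hq, hxq⟩ := hy hx
        exact ⟨q, hw q hq, h.sub q (lt_trans hq hws) hxq⟩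
      obtain ⟨g, hg, h1⟩ := hRF.toward hF' w (E := y ∪ z) (union_subset hyA hz)
        (small_union hyc hzc)
      have hgz : ∀ x ∈ g '' z, ∃ q, q ⊂ w ∧ x ∈ A q := by
        rintro _ ⟨x, hx, rfl⟩
        obtain ⟨q, hq, hxq⟩ := hz hx
        refine ⟨q ∩ w, ?_, (h1 q hq x (Or.inr hx) hxq).1⟩
        refine lt_of_le_of_ne Finset.inter_subset_right fun h2 => hwF' (hF'.2 q hq w ?_)
        rw [← h2]
        exact Finset.inter_subset_left
      obtain ⟨k, hk, h2, h3⟩ := IH (g '' z) (fun x hx => by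
          obtain ⟨q, hq, hxq⟩ := hgz x hx
          exact ⟨q, hw q hq, hxq⟩) (small_image g hzc) y (fun x hx => by
          obtain ⟨q, hq, hxq⟩ := hy hx
          exact ⟨q, hw q hq, hxq⟩) hyc
      refine ⟨k * g, M.G.mul_mem hk hg, fun a ha => ?_, fun d hd => ?_⟩
      · obtain ⟨q, hq, haq⟩ := hy ha
        rw [Equiv.Perm.mul_apply, (h1 q (hw q hq) a (Or.inl ha)
          (h.sub q (lt_trans hq hws) haq)).2 hq.1, h2 a ha]
      · obtain ⟨q, hq, hdq⟩ := hgz (g d) (mem_image_of_mem g hd)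
        exact ⟨q, hq, h3 q (hw q hq) (g d) (mem_image_of_mem g hd) hdq⟩
    obtain ⟨b, hb, hbc, hbiso⟩ := (h.atomic w hws.1 hwW).iso (E' ∩ D w) inter_subset_right
      (small_inter_left _ hEc')
    have hiso1 : M.Isol b (iun A F') (E' ∩ D w) := hbiso.lift htv hb hbc
    have hbD : b ⊆ iun D F' := by
      intro x hx
      obtain ⟨q, hq, hxq⟩ := hb hx
      exact ⟨q, hw q hq, hxq⟩
    -- the first move
    have hind : M.Ind N (A w) (iun A F') := ind_hull h.fam h.ref hwF hF' hsub hwF' hN.sub hNw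
    obtain ⟨g0, hg0, h01, h02⟩ := hM.sym hN.mem hind
      (((E ∩ iun A F') ∪ (E' ∩ iun D F')) ∪ b)
      (fun x hx => Or.inr (by
        rcases hx with (hx | hx) | hx
        · exact hx.2
        · exact hdom hsub hx.2
        · exact hdom hsub (hbD hx)))
      (small_union (small_union hErc hE'rc) hbc) ((E ∩ A w) ∪ (E' ∩ D w))
      (union_subset inter_subset_right (inter_subset_right.trans (h.sub w hws))) hac
    -- isolation of the moved tuple
    obtain ⟨b2, hb2, hb2c, hb2iso⟩ := hN.iso (g0 '' ((E ∩ A w) ∪ (E' ∩ D w))) (by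
      rintro _ ⟨x, hx, rfl⟩
      exact h02 x hx) (small_image g0 hac)
    have hiso2 := hb2iso.lift (hRF.tv hF' hwF' hw) hb2 hb2c
    have hb2A : b2 ⊆ iun A F' := by
      intro x hx
      obtain ⟨q, hq, hxq⟩ := hb2 hx
      exact ⟨q, hw q hq, hxq⟩
    -- the second move
    obtain ⟨g1, hg1, h11, h12⟩ := IH ((E ∩ iun A F') ∪ b2) (union_subset hEr hb2A)
      (small_union hErc hb2c) ((E' ∩ iun D F') ∪ b) (union_subset hE'r hbD)
      (small_union hE'rc hbc)
    -- the tests
    have hT : g1 '' (((E ∩ iun A F') ∪ (E' ∩ iun D F')) ∪ b2) ⊆ iun A F' := by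
      rintro _ ⟨x, (hx | hx) | hx, rfl⟩
      · obtain ⟨q, hq, hxq⟩ := hx.2
        exact hdom hsub ⟨q, hq, h12 q hq x (Or.inl hx) hxq⟩
      · rw [h11 x (Or.inl hx)]
        exact hdom hsub hx.2
      · obtain ⟨q, hq, hxq⟩ := hb2 hx
        exact hdom hsub ⟨q, hw q hq, h12 q (hw q hq) x (Or.inr hx) hxq⟩
    obtain ⟨t, ht, ht1, ht2⟩ := hiso1 (g1 * g0) (M.G.mul_mem hg1 hg0) (fun x hx => by
      rw [Equiv.Perm.mul_apply, h01 x (Or.inr hx), h11 x (Or.inr hx)]) _ hT
      (small_image g1 (small_union (small_union hErc hE'rc) hb2c))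
    let g2 : Equiv.Perm C := t⁻¹ * g1
    have hg2 : g2 ∈ M.G := M.G.mul_mem (M.G.inv_mem ht) hg1
    have hg2T : ∀ x ∈ ((E ∩ iun A F') ∪ (E' ∩ iun D F')) ∪ b2, g2 x = g1 x := by
      intro x hx
      change t⁻¹ (g1 x) = g1 x
      exact fix_inv (ht1 _ (mem_image_of_mem g1 hx))
    have hg2e : ∀ x ∈ E' ∩ D w, g2 (g0 x) = x := by
      intro x hx
      change t⁻¹ (g1 (g0 x)) = x
      have h3 := ht2 x hx
      rw [Equiv.Perm.mul_apply] at h3
      rw [← h3, inv_ap]
    -- saturation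
    obtain ⟨k, hk, hk1, hk2⟩ := M.sat (h.mem hws.1) (A := g2 '' b2 ∪ (E' ∩ D w))
      (B := g2 '' (g0 '' (E ∩ A w))) (by
        refine union_subset ?_ inter_subset_right
        rintro _ ⟨x, hx, rfl⟩
        rw [hg2T x (Or.inr hx)]
        obtain ⟨q, hq, hxq⟩ := hb2 hx
        exact h.mono hws.1 hq.1 (h12 q (hw q hq) x (Or.inr hx) hxq))
      (small_union (small_image g2 hb2c) (small_inter_left _ hEc'))
      (small_image g2 (small_image g0 (small_inter_left _ hEc)))
    obtain ⟨l, hl, hl1, hl2⟩ := hiso2 (g2⁻¹ * k * g2) (M.G.mul_mem (M.G.mul_mem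
      (M.G.inv_mem hg2) hk) hg2) (fun x hx => by
        change g2⁻¹ (k (g2 x)) = x
        rw [hk1 _ (Or.inl (mem_image_of_mem g2 hx)), inv_ap])
      ((E ∩ iun A F') ∪ (E' ∩ iun D F')) (union_subset hEr (hE'r.trans (hdom hsub)))
      (small_union hErc hE'rc)
    have hfin : ∀ x, (g2 * l * g0) x = g2 (l (g0 x)) := fun x => rfl
    refine ⟨g2 * l * g0, M.G.mul_mem (M.G.mul_mem hg2 hl) hg0, fun e he => ?_,
      fun v hv e he hev => ?_⟩
    · rw [hfin]
      have h3 := hE' he
      rw [iun_insert] at h3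
      rcases h3 with h3 | h3
      · rw [hl2 _ (mem_image_of_mem g0 (Or.inr ⟨he, h3⟩))]
        change g2 (g2⁻¹ (k (g2 (g0 e)))) = e
        rw [ap_inv, hg2e e ⟨he, h3⟩]
        exact hk1 e (Or.inr ⟨he, h3⟩)
      · rw [h01 e (Or.inl (Or.inr ⟨he, h3⟩)), hl1 e (Or.inr ⟨he, h3⟩),
          hg2T e (Or.inl (Or.inr ⟨he, h3⟩)), h11 e (Or.inl ⟨he, h3⟩)]
    · rw [hfin]
      rcases Finset.mem_insert.1 hv with rfl | hv
      · rw [hl2 _ (mem_image_of_mem g0 (Or.inl ⟨he, hev⟩))]
        change g2 (g2⁻¹ (k (g2 (g0 e)))) ∈ _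
        rw [ap_inv]
        exact hk2 _ (mem_image_of_mem g2 (mem_image_of_mem g0 ⟨he, hev⟩))
      · have h3 : e ∈ E ∩ iun A F' := ⟨he, v, hv, hev⟩
        rw [h01 e (Or.inl (Or.inl h3)), hl1 e (Or.inl h3), hg2T e (Or.inl (Or.inl h3))]
        exact h12 v hv e (Or.inl h3) hev
  exact main s.ssubsets h.fam.down h.subW Finset.Subset.rfl

/-- The hulls are independent. -/
theorem refD (hM : M.Calc) (hG : ∀ v, v ⊂ s → 2 ≤ v.card → GDI M ι v.card) :
    IRef M D s.ssubsets := by
  intro x E hE hEc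
  have hEA : E ⊆ iun A s.ssubsets := by
    intro e he
    obtain ⟨v, hv, hev⟩ := hE he
    exact ⟨v, hv, h.sub v (Finset.mem_ssubsets.1 hv) hev⟩
  obtain ⟨g, hg, h1⟩ := h.ref x E hEA hEc
  obtain ⟨k, hk, h2, h3⟩ := h.key hM hG (g '' E) (by
    rintro _ ⟨e, he, rfl⟩
    obtain ⟨v, hv, hev⟩ := hEA he
    exact ⟨v.erase x, down_sdiff_erase h.fam.down hv x, (h1 v hv e he hev).1⟩)
    (small_image g hEc) {e | e ∈ E ∧ ∃ v ∈ s.ssubsets, x ∉ v ∧ e ∈ D v} (by
      rintro e ⟨-, v, hv, -, hev⟩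
      exact ⟨v, hv, hev⟩) (small_subset (fun e he => he.1) hEc)
  refine ⟨k * g, M.G.mul_mem hk hg, fun v hv e he hev => ?_⟩
  have h4 := h1 v hv e he (h.sub v (Finset.mem_ssubsets.1 hv) hev)
  refine ⟨?_, fun h5 => ?_⟩
  · rw [Equiv.Perm.mul_apply]
    exact h3 _ (down_sdiff_erase h.fam.down hv x) (g e) (mem_image_of_mem g he) h4.1
  · rw [Equiv.Perm.mul_apply, h4.2 h5]
    exact h2 e ⟨he, v, hv, h5, hev⟩

theorem refD' (hM : M.Calc) (hG : ∀ v, v ⊂ s → 2 ≤ v.card → GDI M ι v.card) :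
    IRef M D s.powerset := by
  have hst : Steps M D s.ssubsets s.powerset := by
    refine ⟨h.famD, h.fam.down, fun v hv => Finset.mem_powerset.2 (Finset.mem_ssubsets.1 hv).1,
      fun w hw hw' => Or.inl ?_⟩
    have h1 : w = s := by
      by_contra hne
      exact hw' (Finset.mem_ssubsets.2 (lt_of_le_of_ne (Finset.mem_powerset.1 hw) hne))
    subst h1
    exact h.atomic w (Finset.Subset.refl _) fun h2 => lt_irrefl _
      (Finset.mem_ssubsets.1 (h.subW h2))
  exact hst.ref hM (h.refD hM hG)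

/-- A face is independent from the top hull over its hull. -/
theorem ind_top (hM : M.Calc) (hG : ∀ v, v ⊂ s → 2 ≤ v.card → GDI M ι v.card)
    {r : Finset ι} (hr : r ⊂ s) : M.Ind (D r) (A r) (D s) := by
  have hsW : s ∉ W := fun h1 => lt_irrefl _ (Finset.mem_ssubsets.1 (h.subW h1))
  have h1 : M.Ind (D r) (ibd D s) (A r) := by
    intro y hy hyc z hz hzc
    obtain ⟨g, hg, h2, h3⟩ := h.key hM hG z (fun x hx => ⟨r, Finset.mem_ssubsets.2 hr, hz hx⟩)
      hzc y (by
        intro x hx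
        rcases hy hx with h4 | h4
        · exact ⟨r, Finset.mem_ssubsets.2 hr, h4⟩
        · rw [iun_ssubsets]
          exact h4) hyc
    exact ⟨g, hg, h2, fun b hb => h3 r (Finset.mem_ssubsets.2 hr) b hb (hz hb)⟩
  have h2 := h.atomic s (Finset.Subset.refl s) hsW
  have h3 : ibd D s = ibd D s ∪ D r := by
    rw [union_eq_self_of_subset_right]
    exact fun x hx => ⟨r, hr, hx⟩
  rw [h3] at h2
  exact hM.sym (h.mem hr.1) (h2.dom h1)

/-- One more face. -/
theorem step (hM : M.Calc) (hls : ∀ X : Set C, #X ≤ M.χ → ∃ N ∈ M.S, X ⊆ N)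
    (hG : ∀ v, v ⊂ s → 2 ≤ v.card → GDI M ι v.card) {r : Finset ι} (hr : r ⊂ s) (hrW : r ∉ W)
    (hrs : ∀ q, q ⊂ r → q ∈ W) (hMd : ∀ j, 1 ≤ j → j < s.card → Md M ι j) :
    ∃ D', Hull M A D' s (insert r W) := by
  have hr2 : 2 ≤ r.card := by
    by_contra h1
    exact hrW (h.one r hr (by omega))
  have hsW : s ∉ W := fun h1 => lt_irrefl _ (Finset.mem_ssubsets.1 (h.subW h1))
  have hr0 : r.Nonempty := Finset.card_pos.1 (by omega)
  have hcard : ∀ v ⊆ s, #(D v) ≤ M.χ := fun v hv => (M.S_card (h.mem hv)).le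
  obtain ⟨K₀, hK₀, hK₀s⟩ := hls (iun D s.powerset ∪ iun A s.ssubsets)
    ((mk_union_le _ _).trans (add_le_of_le M.hχ
      (card_iun fun v hv => hcard v (Finset.mem_powerset.1 hv))
      (card_iun fun v hv => (M.S_card (h.fam.mem v hv)).le)))
  let K : Finset ι → Set C := fun v => if v = s then K₀ else A v
  have hKs : K s = K₀ := if_pos rfl
  have hKv : ∀ v, v ⊂ s → K v = A v := fun v hv => if_neg hv.ne
  have hcase : ∀ v, v ∈ s.powerset → v = s ∨ v ⊂ s := fun v hv =>
    (eq_or_ne v s).imp id fun h1 => lt_of_le_of_ne (Finset.mem_powerset.1 hv) h1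
  obtain ⟨P, hP1, hP2, hP3⟩ := exists_blk_in (K := K) h.famD (h.refD' hM hG)
    (Finset.mem_powerset.2 hr.1) hr0 (Q := D s) (by
      rintro x ⟨v, hv, hx⟩
      exact h.mono (Finset.Subset.refl s) (Finset.mem_powerset.1 hv) hx)
    (h.fam.mem r (Finset.mem_ssubsets.2 hr)) (h.sub r hr) (h.ind_top hM hG hr) (by
      intro v hv hrv
      have h1 : v.card ≤ s.card := Finset.card_le_card (Finset.mem_powerset.1 hv)
      have h2 : (v \ r).card = v.card - r.card := Finset.card_sdiff_of_subset hrv.1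
      have h3 : r.card < v.card := Finset.card_lt_card hrv
      exact hMd _ (by omega) (by omega)) (by
      intro v hv _
      rcases hcase v hv with rfl | hvs
      · rw [hKs]
        exact hK₀
      · rw [hKv v hvs]
        exact h.fam.mem v (Finset.mem_ssubsets.2 hvs)) (by
      intro v hv _
      rcases hcase v hv with rfl | hvs
      · rw [hKs]
        exact fun x hx => hK₀s (Or.inl ⟨v, hv, hx⟩)
      · rw [hKv v hvs]
        exact h.sub v hvs) (by
      intro v hv hrv
      rcases hcase v hv with rfl | hvs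
      · rw [hKs]
        exact fun x hx => hK₀s (Or.inr ⟨r, Finset.mem_ssubsets.2 hr, hx⟩)
      · rw [hKv v hvs]
        exact h.fam.mono v (Finset.mem_ssubsets.2 hvs) r hrv.1) (by
      intro v hv _ w hrw hwv
      have hws : w ⊂ s := lt_of_lt_of_le hwv (Finset.mem_powerset.1 hv)
      rw [hKv w hws]
      rcases hcase v hv with rfl | hvs
      · rw [hKs]
        exact fun x hx => hK₀s (Or.inr ⟨w, Finset.mem_ssubsets.2 hws, hx⟩)
      · rw [hKv v hvs]
        exact h.fam.mono v (Finset.mem_ssubsets.2 hvs) w hwv.1)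
  have hPD : ∀ v ⊆ s, ¬ r ⊆ v → P v = D v := fun v hv h1 =>
    hP2.same v (Finset.mem_powerset.2 hv) h1
  refine ⟨P, h.fam, h.ref, ⟨Finset.mem_insert_of_mem h.down.1, fun v hv q hq => ?_⟩,
    fun v hv => ?_, fun v hv hv2 => Finset.mem_insert_of_mem (h.one v hv hv2), fun v hv => ?_,
    fun v hv => ?_, fun v hv hvW => ?_⟩
  · rcases Finset.mem_insert.1 hv with rfl | hv
    · rcases eq_or_ne q v with rfl | hne
      · exact Finset.mem_insert_self _ _
      · exact Finset.mem_insert_of_mem (hrs q (lt_of_le_of_ne hq hne))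
    · exact Finset.mem_insert_of_mem (h.down.2 v hv q hq)
  · rcases Finset.mem_insert.1 hv with rfl | hv
    · exact Finset.mem_ssubsets.2 hr
    · exact h.subW hv
  · rcases Finset.mem_insert.1 hv with rfl | hv
    · exact hP1
    · rw [hPD v (Finset.mem_ssubsets.1 (h.subW hv)).1 fun h1 => hrW (h.down.2 v hv r h1)]
      exact h.eq v hv
  · by_cases h1 : r ⊆ v
    · rcases eq_or_ne r v with rfl | hne
      · rw [hP1]
      · have h2 := hP3 v (Finset.mem_powerset.2 hv.1) (lt_of_le_of_ne h1 hne)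
        rwa [hKv v hv] at h2
    · rw [hPD v hv.1 h1]
      exact h.sub v hv
  · have hvW' : v ∉ W := fun h1 => hvW (Finset.mem_insert_of_mem h1)
    by_cases h1 : r ⊆ v
    · have hrv : r ⊂ v := by
        refine lt_of_le_of_ne h1 ?_
        rintro rfl
        exact hvW (Finset.mem_insert_self _ _)
      have h2 := hP2.atomic v (Finset.mem_powerset.2 hv) hrv
      have h3 : nbd D P r v = D v ∪ ibd P v := by
        ext x
        constructor
        · rintro (hx | ⟨w, hw1, hw2, hx⟩)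
          · exact Or.inl hx
          · exact Or.inr ⟨w, hw2, hx⟩
        · rintro (hx | ⟨w, hw, hx⟩)
          · exact Or.inl hx
          · by_cases h4 : r ⊆ w
            · exact Or.inr ⟨w, h4, hw, hx⟩
            · rw [hPD w (hw.1.trans hv) h4] at hx
              exact Or.inl (h.mono hv hw.1 hx)
      rw [h3] at h2
      have h5 : ibd D v ⊆ ibd P v := by
        rintro x ⟨w, hw, hx⟩
        exact ⟨w, hw, hP2.le (Finset.mem_powerset.2 (hw.1.trans hv)) hx⟩
      refine atomic_trans h2 (h.atomic v hv hvW') h5 ?_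
      intro y hy hyc z hz hzc
      obtain ⟨g, hg, h6, h7⟩ := hP2.refC hM z (by
        intro x hx
        obtain ⟨w, hw, hxw⟩ := hz hx
        exact ⟨w, Finset.mem_powerset.2 (hw.1.trans hv), hxw⟩) hzc y (by
        intro x hx
        obtain ⟨w, hw, hxw⟩ := hy hx
        exact h.mono (Finset.Subset.refl s) (hw.1.trans hv) hxw) hyc
      refine ⟨g, hg, h6, fun x hx => ?_⟩
      obtain ⟨w, hw, hxw⟩ := hz hx
      exact ⟨w, hw, h7 w (Finset.mem_powerset.2 (hw.1.trans hv)) x hx hxw⟩
    · rw [hPD v hv h1, ibd_congr (A' := D) fun w hw => hPD w (hw.1.trans hv)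
        fun h4 => h1 (h4.trans hw.1)]
      exact h.atomic v hv hvW'

end Hull

theorem iref_zero : IRef M A {∅} := by
  intro x E hE hEc
  refine ⟨1, M.G.one_mem, fun v hv e he hev => ?_⟩
  rw [Finset.mem_singleton] at hv
  subst hv
  exact ⟨by rwa [Finset.erase_empty], fun _ => rfl⟩

theorem down_zero {α : Type*} : Down ({∅} : Finset (Finset α)) := by
  refine ⟨Finset.mem_singleton_self _, fun v hv q hq => ?_⟩
  rw [Finset.mem_singleton] at hv
  subst hv
  rw [Finset.subset_empty.1 hq]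
  exact Finset.mem_singleton_self _

/-- The hulls over the one-dimensional faces. -/
theorem exists_hull_one (hM : M.Calc) (hA : IFam M A s.ssubsets) (hR : IRef M A s.ssubsets)
    (hs : 2 ≤ s.card) (hMd : ∀ j, 1 ≤ j → j < s.card → Md M ι j) :
    ∃ D, Hull M A D s (s.ssubsets.filter fun v => v.card < 2) := by
  set W : Finset (Finset ι) := s.ssubsets.filter fun v => v.card < 2 with hW
  have hWm : ∀ v, v ∈ W ↔ v ⊂ s ∧ v.card < 2 := fun v => by
    rw [hW, Finset.mem_filter, Finset.mem_ssubsets]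
  have h0s : (∅ : Finset ι) ⊂ s := Finset.empty_ssubset.2 (Finset.card_pos.1 (by omega))
  have hWd : Down W := by
    refine ⟨(hWm ∅).2 ⟨h0s, by simp⟩, fun v hv q hq => (hWm q).2 ⟨?_, ?_⟩⟩
    · exact lt_of_le_of_lt hq ((hWm v).1 hv).1
    · exact lt_of_le_of_lt (Finset.card_le_card hq) ((hWm v).1 hv).2
  have hpt : ∀ y ∈ s, ({y} : Finset ι) ⊂ s := by
    intro y hy
    refine lt_of_le_of_ne (Finset.singleton_subset_iff.2 hy) ?_
    rintro rfl
    simp at hs
  have key : ∀ F', Down F' → W ⊆ F' → F' ⊆ s.powerset → ∃ D : Finset ι → Set C,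
      (∀ v ∈ W, D v = A v) ∧ (∀ v ∈ F', v ⊂ s → D v ⊆ A v) ∧
        ∀ v ∈ F', v ∉ W → M.Atomic (D v) (ibd D v) := by
    refine down_induction_from (p := fun F' => F' ⊆ s.powerset → ∃ D : Finset ι → Set C,
      (∀ v ∈ W, D v = A v) ∧ (∀ v ∈ F', v ⊂ s → D v ⊆ A v) ∧
        ∀ v ∈ F', v ∉ W → M.Atomic (D v) (ibd D v)) hWd ?_ ?_
    · intro _
      exact ⟨A, fun _ _ => rfl, fun _ _ _ => Subset.rfl, fun v hv hv' => absurd hv hv'⟩
    intro F' w hF' h0 hwF' hw ih hsub'
    have hsub : F' ⊆ s.powerset := (Finset.subset_insert w F').trans hsub'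
    have hws : w ⊆ s := Finset.mem_powerset.1 (hsub' (Finset.mem_insert_self w F'))
    have hwW : w ∉ W := fun h1 => hwF' (h0 h1)
    have hw2 : 2 ≤ w.card := by
      by_contra h1
      have h2 : w ≠ s := by
        rintro rfl
        exact h1 hs
      exact hwW ((hWm w).2 ⟨lt_of_le_of_ne hws h2, by omega⟩)
    obtain ⟨D, h1, h2, h3⟩ := ih hsub
    obtain ⟨a, ha⟩ : w.Nonempty := Finset.card_pos.1 (by omega)
    have haS : w.erase a ⊂ w := Finset.erase_ssubset ha
    have hlt : ∀ q, q ⊂ w → q ⊂ s := fun q hq => lt_of_lt_of_le hq hws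
    have hmem : ∀ q, q ⊂ w → D q ∈ M.S := by
      intro q hq
      by_cases hqW : q ∈ W
      · rw [h1 q hqW]
        exact hA.mem q (Finset.mem_ssubsets.2 (hlt q hq))
      · exact (h3 q (hw q hq) hqW).mem
    have hmono : ∀ q, q ⊂ w → ∀ t, t ⊆ q → D t ⊆ D q := by
      intro q hq t ht
      rcases eq_or_ne t q with rfl | hne
      · exact Subset.rfl
      by_cases hqW : q ∈ W
      · rw [h1 q hqW, h1 t (hWd.2 q hqW t ht)]
        exact hA.mono q (Finset.mem_ssubsets.2 (hlt q hq)) t ht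
      · exact fun x hx => (h3 q (hw q hq) hqW).sub ⟨t, lt_of_le_of_ne ht hne, hx⟩
    have hsubA : ∀ q, q ⊂ w → D q ⊆ A q := fun q hq => h2 q (hw q hq) (hlt q hq)
    have hindA : ∀ y ∈ w, ∀ q, q ⊂ w → y ∉ q → M.Ind (D ∅) (D {y}) (D q) := by
      intro y hy q hq hyq
      have hys : ({y} : Finset ι) ⊂ s := hpt y (hws hy)
      have h4 := hR.ind hA.down hA (Finset.mem_ssubsets.2 hys)
        (Finset.mem_ssubsets.2 (hlt q hq))
      rw [Finset.singleton_inter_of_notMem hyq] at h4
      rw [h1 ∅ hWd.1, h1 {y} ((hWm _).2 ⟨hys, by simp⟩)]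
      exact h4.mono Subset.rfl (hsubA q hq)
    have hfam : IFam M D (w.erase a).powerset := by
      refine ⟨down_powerset _, fun t ht => hmem t ?_, fun t ht => hmono t ?_⟩
      · exact lt_of_le_of_lt (Finset.mem_powerset.1 ht) haS
      · exact lt_of_le_of_lt (Finset.mem_powerset.1 ht) haS
    have hsteps : Steps M D {∅} (w.erase a).powerset := by
      refine ⟨hfam, down_zero, ?_, fun t ht ht0 => ?_⟩
      · rw [Finset.singleton_subset_iff]
        exact Finset.empty_mem_powerset _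
      · have ht1 : t ⊂ w := lt_of_le_of_lt (Finset.mem_powerset.1 ht) haS
        by_cases htW : t ∈ W
        · right
          have ht2 := ((hWm t).1 htW).2
          have ht3 : t.Nonempty := by
            rw [Finset.nonempty_iff_ne_empty]
            rintro rfl
            exact ht0 (Finset.mem_singleton_self _)
          obtain ⟨y, rfl⟩ := Finset.card_eq_one.1 (by
            have := Finset.card_pos.2 ht3
            omega : t.card = 1)
          have hyw : y ∈ w := ht1.1 (Finset.mem_singleton_self y)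
          refine ⟨y, rfl, ?_⟩
          refine (hindA y hyw ((w.erase a).erase y) (lt_of_le_of_lt (Finset.erase_subset _ _)
            haS) (Finset.notMem_erase y _)).mono Subset.rfl ?_
          rintro x ⟨q, hq, hx⟩
          obtain ⟨hq1, hq2⟩ := Finset.mem_filter.1 hq
          exact hmono _ (lt_of_le_of_lt (Finset.erase_subset _ _) haS) q
            (Finset.subset_erase.2 ⟨Finset.mem_powerset.1 hq1, hq2⟩) hx
        · exact Or.inl (h3 t (hw t ht1) htW)
    have haw : ({a} : Finset ι) ⊂ w := by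
      refine lt_of_le_of_ne (Finset.singleton_subset_iff.2 ha) ?_
      rintro rfl
      simp at hw2
    have hE : Ext1 M D (w.erase a) a := by
      refine ⟨⟨hfam, hsteps.ref hM iref_zero⟩, Finset.notMem_erase a w, hmem _ haw,
        hmono _ haw _ (Finset.empty_subset _), hindA a ha _ haS (Finset.notMem_erase a w),
        fun u hu hu0 => ?_⟩
      have h4 : insert a u ⊂ w := by
        have h5 := insert_ssubset_insert' (Finset.notMem_erase a w) hu
        rwa [Finset.insert_erase ha] at h5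
      refine h3 _ (hw _ h4) fun h5 => ?_
      have h6 := ((hWm _).1 h5).2
      rw [Finset.card_insert_of_notMem fun h => Finset.notMem_erase a w (hu.1 h)] at h6
      have := Finset.card_pos.2 hu0
      omega
    have hcw : w.card ≤ s.card := Finset.card_le_card hws
    obtain ⟨N, hN⟩ := hMd (w.card - 1) (by omega) (by omega) D (w.erase a) a
      (Finset.card_erase_of_mem ha) hE
    rw [Finset.insert_erase ha] at hN
    obtain ⟨N', hN', hNA⟩ : ∃ N', M.Atomic N' (ibd D w) ∧ (w ⊂ s → N' ⊆ A w) := by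
      by_cases hwss : w ⊂ s
      · obtain ⟨N', h4, h5⟩ := exists_atomic_in hN (hA.mem w (Finset.mem_ssubsets.2 hwss)) (by
          rintro x ⟨q, hq, hx⟩
          exact hA.mono w (Finset.mem_ssubsets.2 hwss) q hq.1 (hsubA q hq hx))
        exact ⟨N', h4, fun _ => h5⟩
      · exact ⟨N, hN, fun h4 => absurd h4 hwss⟩
    refine ⟨update D w N', fun v hv => ?_, fun v hv hvs => ?_, fun v hv hvW => ?_⟩
    · rw [update_of_ne]
      · exact h1 v hv
      · rintro rfl
        exact hwW hv
    · rcases Finset.mem_insert.1 hv with rfl | hv'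
      · rw [update_self]
        exact hNA hvs
      · rw [update_of_ne]
        · exact h2 v hv' hvs
        · rintro rfl
          exact hwF' hv'
    · rcases Finset.mem_insert.1 hv with rfl | hv'
      · rw [update_self, ← ibd_congr (A := D) fun q hq => by rw [update_of_ne hq.ne]]
        exact hN'
      · have hvw : v ≠ w := by
          rintro rfl
          exact hwF' hv'
        rw [update_of_ne hvw, ← ibd_congr (A := D) fun q hq => by
          rw [update_of_ne]
          rintro rfl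
          exact hwF' (hF'.2 v hv' _ hq.1)]
        exact h3 v hv' hvW
  obtain ⟨D, h1, h2, h3⟩ := key s.powerset (down_powerset s) (fun v hv =>
    Finset.mem_powerset.2 ((hWm v).1 hv).1.1) Finset.Subset.rfl
  exact ⟨D, hA, hR, hWd, fun v hv => Finset.mem_ssubsets.2 ((hWm v).1 hv).1,
    fun v hv hv2 => (hWm v).2 ⟨hv, hv2⟩, h1,
    fun v hv => h2 v (Finset.mem_powerset.2 hv.1) hv,
    fun v hv hvW => h3 v (Finset.mem_powerset.2 hv) hvW⟩

/-- **Atomic tops over arbitrary boundaries from the extensions by one model.** -/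
theorem gdi_of_md (hM : M.Calc) (hls : ∀ X : Set C, #X ≤ M.χ → ∃ N ∈ M.S, X ⊆ N) :
    ∀ m, (∀ j, 1 ≤ j → j < m → Md M ι j) → GDI M ι m := by
  intro m
  induction m using Nat.strong_induction_on with
  | _ m IH =>
  intro hMd A s hs hA hR
  rcases Nat.lt_or_ge s.card 2 with h1 | h1
  · have h0s : (∅ : Finset ι) ⊂ s := Finset.mem_ssubsets.1 hA.down.1
    have h2 : s.card = 1 := by
      have := Finset.card_pos.2 (Finset.empty_ssubset.1 h0s)
      omega
    obtain ⟨x, rfl⟩ := Finset.card_eq_one.1 h2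
    rw [ibd_singleton]
    exact ⟨A ∅, atomic_self (hA.mem ∅ hA.down.1)⟩
  · have hG : ∀ v, v ⊂ s → 2 ≤ v.card → GDI M ι v.card := by
      intro v hv _
      have h2 := Finset.card_lt_card hv
      exact IH v.card (by omega) fun j hj1 hj2 => hMd j hj1 (by omega)
    have hMd' : ∀ j, 1 ≤ j → j < s.card → Md M ι j := fun j hj1 hj2 => hMd j hj1 (by omega)
    obtain ⟨D₀, hD₀⟩ := exists_hull_one hM hA hR h1 hMd'
    have key : ∀ W, Down W → (s.ssubsets.filter fun v => v.card < 2) ⊆ W → W ⊆ s.ssubsets →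
        ∃ D, Hull M A D s W := by
      refine down_induction_from (p := fun W => W ⊆ s.ssubsets → ∃ D, Hull M A D s W)
        hD₀.down (fun _ => ⟨D₀, hD₀⟩) ?_
      intro W r _ _ hrW hr ih hsub
      obtain ⟨D, hD⟩ := ih ((Finset.subset_insert r W).trans hsub)
      exact hD.step hM hls hG (Finset.mem_ssubsets.1 (hsub (Finset.mem_insert_self r W))) hrW hr
        hMd'
    obtain ⟨D, hD⟩ := key s.ssubsets hA.down hD₀.subW Finset.Subset.rfl
    have h3 := hD.atomic s (Finset.Subset.refl s) fun h4 => lt_irrefl _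
      (Finset.mem_ssubsets.1 h4)
    rw [ibd_congr (A' := A) fun w hw => hD.eq w (Finset.mem_ssubsets.2 hw)] at h3
    exact ⟨_, h3⟩

end Vale.Agent.P307.R2.H533
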