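import Vale.Agent.P307.R2.H533.One

/-!
The existence statements for one new direction: a finite set of points or a model. Construction
of all the faces, coherent isomorphisms, and the comparison with the prime systems.
-/

universe u v

open Set Cardinal Function

namespace Vale.Agent.P307.R2.H533

open Vale.Agent.P307.R2.H541 Vale.Agent.P307.R2.H541.PG

open scoped Classical

variable {ι : Type v} {C : Type u} {M : PG C}

variable (M) in
/-- Atomic tops for the extensions of the `k`-dimensional systems by finitely many points. -/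
def Pt (ι : Type v) (k : ℕ) : Prop := ∀ (A : Finset ι → Set C) (S : Finset ι) (c : ι),
  S.card = k → Ext1 M A S c → (∃ p : Set C, p.Finite ∧ M.Atomic (A {c}) (p ∪ A ∅)) →
    ∃ N, M.Atomic N (ibd A (insert c S))

variable (M) in
/-- Atomic tops for the extensions of the `k`-dimensional systems by an arbitrary model. -/
def Md (ι : Type v) (k : ℕ) : Prop := ∀ (A : Finset ι → Set C) (S : Finset ι) (c : ι),
  S.card = k → Ext1 M A S c → ∃ N, M.Atomic N (ibd A (insert c S))

variable {A A' : Finset ι → Set C} {s S : Finset ι} {c : ι}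

theorem Md.pt {k : ℕ} (h : Md M ι k) : Pt M ι k := fun A S c hk hE _ => h A S c hk hE

/-- An atomic set moves into every model which contains the base. -/
theorem exists_atomic_in {N X K : Set C} (hN : M.Atomic N X) (hK : K ∈ M.S) (hX : X ⊆ K) :
    ∃ N', M.Atomic N' X ∧ N' ⊆ K := by
  obtain ⟨k, hk, h1, h2⟩ := hN.exists_embed (f := id) (fun D _ _ => ⟨1, M.G.one_mem,
    fun _ _ => rfl⟩) hK (fun x hx => hX hx)
  refine ⟨k '' N, hN.image hk h1, ?_⟩
  rintro _ ⟨a, ha, rfl⟩
  exact h2 a ha

/-- Construction of the faces in a new direction, inside a given model. -/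
theorem exists_ext1 (h : ISys M A S) (hc : c ∉ S) {B : Set C} (hB : B ∈ M.S) (hAB : A ∅ ⊆ B)
    (hind : M.Ind (A ∅) B (A S)) {K : Set C} (hK : K ∈ M.S) (hAK : A S ⊆ K) (hBK : B ⊆ K)
    (hex : ∀ u, u ⊂ S → u.Nonempty → ∀ A' : Finset ι → Set C, (∀ t, t ⊆ S → A' t = A t) →
      A' {c} = B → Ext1 M A' u c → ∃ N, M.Atomic N (ibd A' (insert c u))) :
    ∃ A' : Finset ι → Set C, (∀ t, t ⊆ S → A' t = A t) ∧ A' {c} = B ∧ Ext1 M A' S c ∧
      ∀ u, u ⊂ S → A' (insert c u) ⊆ K := by
  have hne : ∀ t : Finset ι, t ⊆ S → ∀ u : Finset ι, t ≠ insert c u := by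
    rintro t ht u rfl
    exact hc (ht (Finset.mem_insert_self c u))
  have hinj : ∀ u w : Finset ι, u ⊆ S → w ⊆ S → insert c u = insert c w → u = w := by
    intro u w hu hw huw
    rw [← Finset.erase_insert (fun h => hc (hu h)), huw, Finset.erase_insert (fun h => hc (hw h))]
  have key : ∀ F, Down F → F ⊆ S.ssubsets ∪ {∅} → ∃ A' : Finset ι → Set C,
      (∀ t, t ⊆ S → A' t = A t) ∧ A' {c} = B ∧ (∀ u ∈ F, u.Nonempty →
        M.Atomic (A' (insert c u)) (ibd A' (insert c u))) ∧ ∀ u ∈ F, A' (insert c u) ⊆ K := by
    refine down_induction (p := fun F => F ⊆ S.ssubsets ∪ {∅} → ∃ A' : Finset ι → Set C,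
      (∀ t, t ⊆ S → A' t = A t) ∧ A' {c} = B ∧ (∀ u ∈ F, u.Nonempty →
        M.Atomic (A' (insert c u)) (ibd A' (insert c u))) ∧
          ∀ u ∈ F, A' (insert c u) ⊆ K) ?_ ?_
    · intro _
      refine ⟨update A {c} B, fun t ht => ?_, update_self _ _ _, fun u hu hu0 => ?_,
        fun u hu => ?_⟩
      · rw [update_of_ne]
        exact hne t ht ∅
      · rw [Finset.mem_singleton.1 hu] at hu0
        exact absurd hu0 Finset.not_nonempty_empty
      · rw [Finset.mem_singleton.1 hu]
        have : update A {c} B (insert c ∅) = B := update_self _ _ _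
        rw [this]
        exact hBK
    · intro F w hF hwF hw ih hsub
      obtain ⟨A1, h1, h2, h3, h4⟩ := ih ((Finset.subset_insert w F).trans hsub)
      have hw0 : w.Nonempty := by
        rw [Finset.nonempty_iff_ne_empty]
        rintro rfl
        exact hwF hF.1
      have hwS : w ⊂ S := by
        have h5 := hsub (Finset.mem_insert_self w F)
        rcases Finset.mem_union.1 h5 with h6 | h6
        · exact Finset.mem_ssubsets.1 h6
        · rw [Finset.mem_singleton.1 h6] at hw0
          exact absurd hw0 Finset.not_nonempty_empty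
      have hE : Ext1 M A1 w c := by
        refine ⟨(h.congr fun t ht => (h1 t ht).symm).sub hwS.1, fun h5 => hc (hwS.1 h5), ?_, ?_,
          ?_, fun u hu hu0 => h3 u (hw u hu) hu0⟩
        · rw [h2]
          exact hB
        · rw [h2, h1 ∅ (Finset.empty_subset S)]
          exact hAB
        · rw [h2, h1 ∅ (Finset.empty_subset S), h1 w hwS.1]
          exact hind.mono Subset.rfl (h.mono (Finset.Subset.refl S) hwS.1)
      obtain ⟨N₀, hN₀⟩ := hex w hwS hw0 A1 h1 h2 hE
      obtain ⟨N, hN, hNK⟩ := exists_atomic_in hN₀ hK (by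
        rintro x ⟨r, hr, hx⟩
        rcases face_cases (fun h => hc (hwS.1 h)) hr with h5 | ⟨u, hu, rfl⟩
        · rw [h1 r (h5.trans hwS.1)] at hx
          exact hAK (h.mono (Finset.Subset.refl S) (h5.trans hwS.1) hx)
        · exact h4 u (hw u hu) hx)
      have hupd : ∀ t, t ≠ insert c w → update A1 (insert c w) N t = A1 t := fun t ht =>
        update_of_ne ht _ _
      have hcw : ({c} : Finset ι) ≠ insert c w := by
        intro h5
        have h6 := hinj ∅ w (Finset.empty_subset S) hwS.1 h5
        rw [← h6] at hw0
        exact absurd hw0 Finset.not_nonempty_empty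
      refine ⟨update A1 (insert c w) N, fun t ht => ?_, ?_, fun u hu hu0 => ?_, fun u hu => ?_⟩
      · rw [hupd t (hne t ht w)]
        exact h1 t ht
      · rw [hupd _ hcw]
        exact h2
      · have hbd : ∀ v : Finset ι, v ∈ insert w F →
            ibd (update A1 (insert c w) N) (insert c v) = ibd A1 (insert c v) := by
          intro v hv
          refine ibd_congr fun r hr => hupd r ?_
          rintro rfl
          rcases Finset.mem_insert.1 hv with rfl | hv
          · exact lt_irrefl _ hr
          · refine hwF (hF.2 v hv w fun z hz => ?_)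
            have h5 := hr.1 (Finset.mem_insert_of_mem hz)
            rw [Finset.mem_insert] at h5
            exact h5.resolve_left (by
              rintro rfl
              exact hc (hwS.1 hz))
        rw [hbd u hu]
        rcases Finset.mem_insert.1 hu with rfl | hu'
        · rw [update_self]
          exact hN
        · have huS : u ⊆ S := by
            have h5 := hsub hu
            rcases Finset.mem_union.1 h5 with h6 | h6
            · exact (Finset.mem_ssubsets.1 h6).1
            · rw [Finset.mem_singleton.1 h6]
              exact Finset.empty_subset S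
          rw [hupd]
          · exact h3 u hu' hu0
          · intro h5
            have h6 := hinj u w huS hwS.1 h5
            rw [h6] at hu'
            exact hwF hu'
      · rcases Finset.mem_insert.1 hu with rfl | hu'
        · rw [update_self]
          exact hNK
        · have huS : u ⊆ S := by
            have h5 := hsub hu
            rcases Finset.mem_union.1 h5 with h6 | h6
            · exact (Finset.mem_ssubsets.1 h6).1
            · rw [Finset.mem_singleton.1 h6]
              exact Finset.empty_subset S
          rw [hupd]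
          · exact h4 u hu'
          · intro h5
            have h6 := hinj u w huS hwS.1 h5
            rw [h6] at hu'
            exact hwF hu'
  have hdown : Down (S.ssubsets ∪ {∅}) := by
    refine ⟨Finset.mem_union_right _ (Finset.mem_singleton_self _), fun v hv r hr => ?_⟩
    rcases Finset.mem_union.1 hv with h1 | h1
    · exact Finset.mem_union_left _ (Finset.mem_ssubsets.2
        (lt_of_le_of_lt hr (Finset.mem_ssubsets.1 h1)))
    · rw [Finset.mem_singleton] at h1
      subst h1
      rw [Finset.subset_empty.1 hr]
      exact Finset.mem_union_right _ (Finset.mem_singleton_self _)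
  obtain ⟨A', h1, h2, h3, h4⟩ := key _ hdown (Finset.Subset.refl _)
  refine ⟨A', h1, h2, ⟨h.congr fun t ht => (h1 t ht).symm, hc, ?_, ?_, ?_, fun u hu hu0 =>
    h3 u (Finset.mem_union_left _ (Finset.mem_ssubsets.2 hu)) hu0⟩, fun u hu =>
    h4 u (Finset.mem_union_left _ (Finset.mem_ssubsets.2 hu))⟩
  · rw [h2]
    exact hB
  · rw [h2, h1 ∅ (Finset.empty_subset S)]
    exact hAB
  · rw [h2, h1 ∅ (Finset.empty_subset S), h1 S (Finset.Subset.refl S)]
    exact hind

/-- The comparison with the prime systems. -/
theorem ext1_of_psys (hM : M.Calc) {A : Finset C → Set C} {s : Finset C} (h0 : 1 < s.card)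
    (h : ∀ t, t ⊂ s → M.PSys A t) {x : C} (hx : x ∈ s)
    (hind : M.Ind (A ∅) {x} (A (s.erase x))) :
    Ext1 M A (s.erase x) x ∧ M.Atomic (A {x}) ({x} ∪ A ∅) := by
  have hxs : s.erase x ⊂ s := Finset.erase_ssubset hx
  have hP := h _ hxs
  have hsys : ISys M A (s.erase x) := by
    refine ⟨⟨down_powerset _, fun t ht => hP.mem (Finset.mem_powerset.1 ht),
      fun t ht r hr => hP.mono (Finset.mem_powerset.1 ht) hr⟩, ?_⟩
    exact hP.ref hM _ (down_powerset _) fun v hv => Finset.mem_powerset.1 hv
  have hne : ({x} : Finset C) ⊂ s := by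
    refine lt_of_le_of_ne (Finset.singleton_subset_iff.2 hx) ?_
    rintro rfl
    simp at h0
  have hPx := h _ hne
  have hPxa := hPx.atomic {x} (Finset.Subset.refl _) (Finset.singleton_nonempty x)
  rw [bd_singleton] at hPxa
  refine ⟨⟨hsys, Finset.notMem_erase x s, hPx.mem (Finset.Subset.refl _),
    hPx.mono (Finset.Subset.refl _) (Finset.empty_subset _), hPxa.dom hind,
    fun u hu hu0 => ?_⟩, hPxa⟩
  · have h1 : insert x u ⊂ s := by
      have h2 := insert_ssubset_insert' (Finset.notMem_erase x s) hu
      rwa [Finset.insert_erase hx] at h2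
    have h2 := (h _ h1).atomic _ (Finset.Subset.refl _) (Finset.insert_nonempty x u)
    have h3 : bd A (insert x u) = ibd A (insert x u) := by
      have h4 : 1 < (insert x u).card := by
        rw [Finset.card_insert_of_notMem fun h => Finset.notMem_erase x s (hu.1 h)]
        have := Finset.card_pos.2 hu0
        omega
      obtain ⟨-, h5⟩ := (h _ h1).bd_sub_un (F := (insert x u).ssubsets) (Finset.Subset.refl _)
        (fun r hr => Finset.mem_ssubsets.2 hr) h4
      apply Subset.antisymm
      · exact h5
      · rintro y hy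
        exact Or.inr hy
    rw [← h3]
    exact h2

/-- The prime systems have atomic tops if the extensions by points have. -/
theorem di_of_pt (hM : M.Calc) (h1 : ∀ P ∈ M.S, ∀ x : C, ∃ N, M.Atomic N ({x} ∪ P))
    (h : ∀ k, 1 ≤ k → Pt M C k) : M.DI := by
  intro A s hs hsys hind
  rcases PSys.cases_card s with rfl | ⟨x, rfl⟩ | hsc
  · exact absurd hs Finset.not_nonempty_empty
  · rw [bd_singleton]
    exact h1 _ (hsys ∅ (Finset.ssubset_singleton_iff.2 rfl)).memS x
  · obtain ⟨x, hx⟩ := hs
    obtain ⟨hE, hat⟩ := ext1_of_psys hM hsc hsys hx (hind x hx)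
    obtain ⟨N, hN⟩ := h (s.card - 1) (by omega) A (s.erase x) x (Finset.card_erase_of_mem hx) hE
      ⟨{x}, finite_singleton x, hat⟩
    rw [Finset.insert_erase hx] at hN
    have h3 : bd A s = ibd A s := by
      have h4 : ∀ y ∈ s, ({y} : Finset C) ⊂ s := by
        intro y hy
        refine lt_of_le_of_ne (Finset.singleton_subset_iff.2 hy) ?_
        rintro rfl
        simp at hsc
      apply Subset.antisymm
      · rintro y (hy | hy)
        · exact ⟨{y}, h4 y hy, (hsys _ (h4 y hy)).point (Finset.Subset.refl _)
            (Finset.mem_singleton_self y)⟩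
        · exact hy
      · exact fun y hy => Or.inr hy
    rw [h3]
    exact ⟨N, hN⟩

end Vale.Agent.P307.R2.H533
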