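import Vale.Agent.P307.R2.H533.GDI

/-!
Maps which are induced by the group on every proper face of the extension of a system in one
direction: only the independence of one pair has to be checked.
-/

universe u v

open Set Cardinal Function

namespace Vale.Agent.P307.R2.H533

open Vale.Agent.P307.R2.H541 Vale.Agent.P307.R2.H541.PG

open scoped Classical

variable {ι : Type v} {C : Type u} {M : PG C}

variable {A A' : Finset ι → Set C} {S : Finset ι} {c : ι}

/-- The image of an atomic set. -/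
theorem atomic_smul {N X : Set C} (h : M.Atomic N X) {g : Equiv.Perm C} (hg : g ∈ M.G) :
    M.Atomic (g '' N) (g '' X) := by
  refine ⟨M.S_inv hg h.mem, image_mono h.sub, fun E hE hEc => ?_⟩
  have hE' : (g⁻¹ : Equiv.Perm C) '' E ⊆ N := by
    rintro _ ⟨e, he, rfl⟩
    obtain ⟨a, ha, rfl⟩ := hE he
    rwa [inv_ap]
  obtain ⟨B, hB, hBc, hiso⟩ := h.iso _ hE' (small_image _ hEc)
  refine ⟨g '' B, image_mono hB, small_image g hBc, ?_⟩
  intro k hk hkB A hA hAc
  have hA' : (g⁻¹ : Equiv.Perm C) '' A ⊆ X := by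
    rintro _ ⟨a, ha, rfl⟩
    obtain ⟨x, hx, rfl⟩ := hA ha
    rwa [inv_ap]
  obtain ⟨l, hl, h1, h2⟩ := hiso (g⁻¹ * k * g) (M.G.mul_mem (M.G.mul_mem (M.G.inv_mem hg) hk) hg)
    (fun b hb => by
      change g⁻¹ (k (g b)) = b
      rw [hkB _ (mem_image_of_mem g hb), inv_ap]) _ hA' (small_image _ hAc)
  refine ⟨g * l * g⁻¹, M.G.mul_mem (M.G.mul_mem hg hl) (M.G.inv_mem hg), fun a ha => ?_,
    fun e he => ?_⟩
  · change g (l (g⁻¹ a)) = a
    rw [h1 _ (mem_image_of_mem _ ha), ap_inv]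
  · change g (l (g⁻¹ e)) = k e
    rw [h2 _ (mem_image_of_mem _ he)]
    change g (g⁻¹ (k (g (g⁻¹ e)))) = k e
    rw [ap_inv, ap_inv]

namespace Ext1

/-- The images of the faces. -/
theorem image (h : Ext1 M A S c) (hS : S.Nonempty) (f : C → C)
    (hf : ∀ t, t ⊂ insert c S → ∃ g ∈ M.G, ∀ a ∈ A t, g a = f a)
    (hind : M.Ind (f '' A ∅) (f '' A {c}) (f '' A S)) : Ext1 M (fun t => f '' A t) S c := by
  have hSc : S ⊂ insert c S := Finset.ssubset_insert h.notMem
  obtain ⟨g, hg, h1⟩ := hf S hSc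
  have himg : ∀ {t : Finset ι} {g : Equiv.Perm C} {B : Set C}, (∀ a ∈ A t, g a = f a) → B ⊆ A t →
      g '' B = f '' B := fun h2 h3 => image_congr fun a ha => h2 a (h3 ha)
  have hsys : ISys M (fun t => f '' A t) S := (h.sys.smul hg).congr fun t ht =>
    himg h1 (h.sys.mono (Finset.Subset.refl S) ht)
  have hc : ({c} : Finset ι) ⊂ insert c S := by
    have h2 := insert_ssubset_insert' h.notMem (Finset.empty_ssubset.2 hS)
    exact h2
  refine ⟨hsys, h.notMem, ?_, image_mono h.base, hind, fun u hu hu0 => ?_⟩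
  · obtain ⟨g', hg', h2⟩ := hf {c} hc
    have h3 := M.S_inv hg' h.memc
    rwa [himg h2 Subset.rfl] at h3
  · have h2 := insert_ssubset_insert' h.notMem hu
    obtain ⟨g', hg', h3⟩ := hf _ h2
    have h4 := atomic_smul (h.atomic u hu hu0) hg'
    rw [himg h3 Subset.rfl, himg h3 (h.atomic u hu hu0).sub] at h4
    have h5 : f '' ibd A (insert c u) = ibd (fun t => f '' A t) (insert c u) := by
      ext x
      constructor
      · rintro ⟨a, ⟨r, hr, ha⟩, rfl⟩
        exact ⟨r, hr, a, ha, rfl⟩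
      · rintro ⟨r, hr, a, ha, rfl⟩
        exact ⟨a, ⟨r, hr, ha⟩, rfl⟩
    rw [h5] at h4
    exact h4

/-- Coherent maps on the faces are locally elementary if one pair is independent. -/
theorem le_image (hM : M.Calc) (h : Ext1 M A S c) (hS : S.Nonempty) (f : C → C)
    (hf : ∀ t, t ⊂ insert c S → ∃ g ∈ M.G, ∀ a ∈ A t, g a = f a)
    (hind : M.Ind (f '' A ∅) (f '' A {c}) (f '' A S)) : M.LE f (ibd A (insert c S)) := by
  refine h.le hM (h.image hS f hf hind) f fun t ht => ?_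
  obtain ⟨g, hg, h1⟩ := hf t ht
  exact ⟨g, hg, h1, image_congr fun a ha => h1 a ha⟩

/-- Conversely the independence follows from local elementarity on the pair. -/
theorem ind_of_le {P N R : Set C} {f : C → C} (hPN : P ⊆ N) (h : M.Ind P N R)
    (hf : M.LE f (N ∪ R)) : M.Ind (f '' P) (f '' N) (f '' R) := by
  intro y hy hyc z hz hzc
  -- preimages
  have hpre : ∀ S' : Set C, ∀ Z : Set C, Z ⊆ f '' S' → #Z < M.χ → ∃ Y ⊆ S', #Y < M.χ ∧
      f '' Y = Z := by
    intro S' Z hZ hZc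
    have hp : ∀ b : Z, ∃ x ∈ S', f x = b := fun b => hZ b.2
    choose pre hpre1 hpre2 using hp
    refine ⟨range pre, ?_, mk_range_le.trans_lt hZc, ?_⟩
    · rintro _ ⟨b, rfl⟩
      exact hpre1 b
    · ext b
      constructor
      · rintro ⟨_, ⟨b, rfl⟩, rfl⟩
        rw [hpre2]
        exact b.2
      · intro hb
        exact ⟨pre ⟨b, hb⟩, mem_range_self _, hpre2 ⟨b, hb⟩⟩
  have hy' : y ⊆ f '' N := hy.trans (union_subset (image_mono hPN) Subset.rfl)
  obtain ⟨Y, hY, hYc, rfl⟩ := hpre N y hy' hyc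
  obtain ⟨Z, hZ, hZc, rfl⟩ := hpre R z hz hzc
  obtain ⟨k, hk, h2, h3⟩ := h Y (hY.trans subset_union_right) hYc Z hZ hZc
  obtain ⟨l, hl, h4⟩ := hf (Y ∪ Z ∪ k '' Z) (by
    rintro x ((hx | hx) | ⟨w, hw, rfl⟩)
    · exact Or.inl (hY hx)
    · exact Or.inr (hZ hx)
    · exact Or.inl (hPN (h3 w hw))) (small_union (small_union hYc hZc) (small_image k hZc))
  refine ⟨l * k * l⁻¹, M.G.mul_mem (M.G.mul_mem hl hk) (M.G.inv_mem hl), ?_, ?_⟩
  · rintro _ ⟨x, hx, rfl⟩
    rw [← h4 x (Or.inl (Or.inl hx))]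
    change l (k (l⁻¹ (l x))) = l x
    rw [inv_ap, h2 x hx]
  · rintro _ ⟨x, hx, rfl⟩
    rw [← h4 x (Or.inl (Or.inr hx))]
    change l (k (l⁻¹ (l x))) ∈ _
    rw [inv_ap, h4 _ (Or.inr (mem_image_of_mem k hx))]
    exact ⟨k x, h3 x hx, rfl⟩

end Ext1

end Vale.Agent.P307.R2.H533
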