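import Vale.Agent.P307.R2.H533.Pt

/-!
Enlarging one face of an independent family of models: a model `P r` over the face `A r`, free
from a set `Q` which contains the whole family, and atomic models over the old face and the smaller
new faces for all the faces above `r`. The new family is independent and reflects into the old one
over `Q`.
-/

universe u v

open Set Cardinal Function

namespace Vale.Agent.P307.R2.H533

open Vale.Agent.P307.R2.H541 Vale.Agent.P307.R2.H541.PG

open scoped Classical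

variable {ι : Type v} {C : Type u} {M : PG C}

/-- The boundary of a new face. -/
def nbd (A P : Finset ι → Set C) (r v : Finset ι) : Set C :=
  A v ∪ {x | ∃ w, r ⊆ w ∧ w ⊂ v ∧ x ∈ P w}

variable (M) in
/-- One face `A r` is enlarged to `P r`, freely from `Q`. -/
structure Blk (A P : Finset ι → Set C) (F : Finset (Finset ι)) (r : Finset ι) (Q : Set C) :
    Prop where
  fam : IFam M A F
  ref : IRef M A F
  mem_r : r ∈ F
  sub : iun A F ⊆ Q
  memB : P r ∈ M.S
  subB : A r ⊆ P r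
  ind : M.Ind (A r) (P r) Q
  same : ∀ v ∈ F, ¬ r ⊆ v → P v = A v
  atomic : ∀ v ∈ F, r ⊂ v → M.Atomic (P v) (nbd A P r v)

variable {A P : Finset ι → Set C} {F F' : Finset (Finset ι)} {r : Finset ι} {Q B : Set C}

/-- The faces which do not contain `r`, and `r`. -/
noncomputable def lowf (F : Finset (Finset ι)) (r : Finset ι) : Finset (Finset ι) :=
  insert r (F.filter fun v => ¬ r ⊆ v)

theorem down_lowf (hF : Down F) (hr : r ∈ F) : Down (lowf F r) := by
  refine ⟨?_, fun v hv q hq => ?_⟩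
  · rcases r.eq_empty_or_nonempty with rfl | h0
    · exact Finset.mem_insert_self _ _
    · refine Finset.mem_insert_of_mem (Finset.mem_filter.2 ⟨hF.1, fun h => ?_⟩)
      rw [Finset.subset_empty.1 h] at h0
      exact Finset.not_nonempty_empty h0
  · rcases eq_or_ne q r with rfl | hne
    · exact Finset.mem_insert_self _ _
    rcases Finset.mem_insert.1 hv with rfl | hv
    · refine Finset.mem_insert_of_mem (Finset.mem_filter.2 ⟨hF.2 _ hr q hq, fun h => ?_⟩)
      exact hne (Finset.Subset.antisymm hq h)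
    · obtain ⟨h1, h2⟩ := Finset.mem_filter.1 hv
      exact Finset.mem_insert_of_mem (Finset.mem_filter.2 ⟨hF.2 _ h1 q hq,
        fun h => h2 (h.trans hq)⟩)

theorem lowf_sub (hr : r ∈ F) : lowf F r ⊆ F := by
  intro v hv
  rcases Finset.mem_insert.1 hv with rfl | hv
  · exact hr
  · exact (Finset.mem_filter.1 hv).1

theorem ssubset_of_notMem_lowf {v : Finset ι} (hv : v ∈ F) (h : v ∉ lowf F r) : r ⊂ v := by
  refine lt_of_le_of_ne ?_ ?_
  · by_contra h1
    exact h (Finset.mem_insert_of_mem (Finset.mem_filter.2 ⟨hv, h1⟩))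
  · rintro rfl
    exact h (Finset.mem_insert_self _ _)

theorem IFam.isys (h : IFam M A F) (hR : IRef M A F) {v : Finset ι} (hv : v ∈ F) :
    ISys M A v :=
  ⟨h.sub (down_powerset v) fun t ht => h.down.2 v hv t (Finset.mem_powerset.1 ht),
    hR.mono fun t ht => h.down.2 v hv t (Finset.mem_powerset.1 ht)⟩

namespace Blk

theorem sub_face (h : Blk M A P F r Q) {v : Finset ι} (hv : v ∈ F) : A v ⊆ Q :=
  fun _ hx => h.sub ⟨v, hv, hx⟩

theorem le (h : Blk M A P F r Q) {v : Finset ι} (hv : v ∈ F) : A v ⊆ P v := by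
  by_cases h1 : r ⊆ v
  · rcases eq_or_ne r v with rfl | hne
    · exact h.subB
    · exact subset_union_left.trans (h.atomic v hv (lt_of_le_of_ne h1 hne)).sub
  · rw [h.same v hv h1]

theorem mem (h : Blk M A P F r Q) {v : Finset ι} (hv : v ∈ F) : P v ∈ M.S := by
  by_cases h1 : r ⊆ v
  · rcases eq_or_ne r v with rfl | hne
    · exact h.memB
    · exact (h.atomic v hv (lt_of_le_of_ne h1 hne)).mem
  · rw [h.same v hv h1]
    exact h.fam.mem v hv

theorem mono (h : Blk M A P F r Q) {v w : Finset ι} (hv : v ∈ F) (hw : w ⊆ v) : P w ⊆ P v := by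
  have hwF : w ∈ F := h.fam.down.2 v hv w hw
  by_cases h1 : r ⊆ w
  · rcases eq_or_ne w v with rfl | hne
    · exact Subset.rfl
    have hwv : w ⊂ v := lt_of_le_of_ne hw hne
    exact fun x hx => (h.atomic v hv (lt_of_le_of_lt h1 hwv)).sub (Or.inr ⟨w, h1, hwv, hx⟩)
  · rw [h.same w hwF h1]
    exact (h.fam.mono v hv w hw).trans (h.le hv)

theorem famP (h : Blk M A P F r Q) : IFam M P F :=
  ⟨h.fam.down, fun _ ht => h.mem ht, fun _ ht _ hr => h.mono ht hr⟩

/-- The three reflections, for a part of the new faces. -/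
def KeyR (M : PG C) (A P : Finset ι → Set C) (F F' : Finset (Finset ι)) (r : Finset ι)
    (Q : Set C) : Prop :=
  ∀ w : Finset ι, ∀ E ⊆ iun A F ∪ iun P F', #E < M.χ → ∀ D ⊆ Q, #D < M.χ → ∃ g ∈ M.G,
    (∀ v ∈ F, ∀ e ∈ E, e ∈ A v → g e ∈ A (v ∩ w) ∧ (v ⊆ w → g e = e)) ∧
    (∀ v ∈ F', ∀ e ∈ E, e ∈ P v → g e ∈ P (v ∩ w) ∧ (v ⊆ w → g e = e)) ∧
    (w ∈ F → r ⊆ w → ∀ d ∈ D, g d ∈ A w)

def KeyC (M : PG C) (A P : Finset ι → Set C) (F' : Finset (Finset ι)) (Q : Set C) : Prop :=
  ∀ E ⊆ iun P F', #E < M.χ → ∀ D ⊆ Q, #D < M.χ → ∃ g ∈ M.G, (∀ d ∈ D, g d = d) ∧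
    ∀ v ∈ F', ∀ e ∈ E, e ∈ P v → g e ∈ A v

theorem key0C (hM : M.Calc) (h : Blk M A P F r Q) : KeyC M A P (lowf F r) Q := by
  intro E hE hEc D hD hDc
  have hEA : E ∩ iun A F ⊆ A r ∪ Q := fun x hx => Or.inr (h.sub hx.2)
  obtain ⟨g, hg, h1, h2⟩ := hM.sym (h.fam.mem r h.mem_r) h.ind (D ∪ (E ∩ iun A F))
    (union_subset (hD.trans subset_union_right) hEA) (small_union hDc (small_inter_left _ hEc))
    (E ∩ P r) inter_subset_right (small_inter_left _ hEc)
  refine ⟨g, hg, fun d hd => h1 d (Or.inl hd), fun v hv e he hev => ?_⟩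
  rcases Finset.mem_insert.1 hv with rfl | hv
  · exact h2 e ⟨he, hev⟩
  · obtain ⟨h3, h4⟩ := Finset.mem_filter.1 hv
    rw [h.same v h3 h4] at hev
    rw [h1 e (Or.inr ⟨he, v, h3, hev⟩)]
    exact hev

theorem key0R (hM : M.Calc) (h : Blk M A P F r Q) : KeyR M A P F (lowf F r) r Q := by
  intro w E hE hEc D hD hDc
  have hS : A r ∈ M.S := h.fam.mem r h.mem_r
  have hEb : #(E ∩ P r : Set C) < M.χ := small_inter_left _ hEc
  by_cases hrw : r ⊆ w
  · -- the new model is fixed
    obtain ⟨p, hpP, hpc, hp⟩ := hM.based hS hEb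
    have hE1 : (E ∩ iun A F) ∪ p ⊆ iun A F :=
      union_subset inter_subset_right fun x hx => ⟨r, h.mem_r, hpP hx⟩
    have hE1c : #((E ∩ iun A F) ∪ p : Set C) < M.χ := small_union (small_inter_left _ hEc) hpc
    obtain ⟨g, hg, h1⟩ := h.ref.toward h.fam.down w hE1 hE1c
    have h1Q : ∀ x ∈ (E ∩ iun A F) ∪ p, g x ∈ iun A F := by
      intro x hx
      obtain ⟨v, hv, hxv⟩ := hE1 hx
      exact ⟨v ∩ w, h.fam.down.2 v hv _ Finset.inter_subset_left, (h1 v hv x hx hxv).1⟩
    -- the additional set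
    obtain ⟨g', hg', h1', hD'⟩ : ∃ g' ∈ M.G, (∀ x ∈ (E ∩ iun A F) ∪ p, g' x = g x) ∧
        (w ∈ F → ∀ d ∈ D, g' d ∈ A w) := by
      by_cases hwF : w ∈ F
      · obtain ⟨k, hk, h2, h3⟩ := M.sat (h.fam.mem w hwF) (A := g '' ((E ∩ iun A F) ∪ p))
          (B := g '' D) (by
            rintro _ ⟨x, hx, rfl⟩
            obtain ⟨v, hv, hxv⟩ := hE1 hx
            exact h.fam.mono w hwF _ Finset.inter_subset_right (h1 v hv x hx hxv).1)
          (small_image g hE1c) (small_image g hDc)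
        refine ⟨k * g, M.G.mul_mem hk hg, fun x hx => ?_, fun _ d hd => ?_⟩
        · rw [Equiv.Perm.mul_apply]
          exact h2 _ (mem_image_of_mem g hx)
        · exact h3 _ (mem_image_of_mem g hd)
      · exact ⟨g, hg, fun _ _ => rfl, fun h2 => absurd h2 hwF⟩
    have hg'p : ∀ c ∈ p, g' c = c := fun c hc => by
      rw [h1' c (Or.inr hc)]
      exact (h1 r h.mem_r c (Or.inr hc) (hpP hc)).2 hrw
    -- the set on which the independence is used
    let D' : Set C := if w ∈ F then D else ∅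
    have hD'Q : D' ⊆ Q := by
      by_cases hwF : w ∈ F
      · simp only [D', if_pos hwF]
        exact hD
      · simp only [D', if_neg hwF]
        exact empty_subset Q
    have hD'c : #D' < M.χ := by
      by_cases hwF : w ∈ F
      · simp only [D', if_pos hwF]
        exact hDc
      · simp only [D', if_neg hwF]
        exact small_finite finite_empty
    have hD'i : ∀ d ∈ D', g' d ∈ Q := by
      intro d hd
      by_cases hwF : w ∈ F
      · simp only [D', if_pos hwF] at hd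
        exact h.sub_face hwF (hD' hwF d hd)
      · simp only [D', if_neg hwF] at hd
        exact absurd hd (notMem_empty d)
    obtain ⟨k, hk, h2, h3, h4⟩ := hp g' hg' hg'p (((E ∩ iun A F) ∪ p) ∪ D')
      (small_union hE1c hD'c) (h.ind.mono inter_subset_right
        (union_subset (hE1.trans h.sub) hD'Q)) (h.ind.mono inter_subset_right (by
        rintro _ ⟨c, hc | hc, rfl⟩
        · rw [h1' c hc]
          exact h.sub (h1Q c hc)
        · exact hD'i c hc))
    refine ⟨k, hk, fun v hv e he hev => ?_, fun v hv e he hev => ?_, fun hwF _ d hd => ?_⟩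
    · have h5 : e ∈ (E ∩ iun A F) ∪ p := Or.inl ⟨he, v, hv, hev⟩
      rw [h4 e (Or.inl h5), h1' e h5]
      exact h1 v hv e h5 hev
    · rcases Finset.mem_insert.1 hv with rfl | hv
      · rw [h3 e ⟨he, hev⟩, Finset.inter_eq_left.2 hrw]
        exact ⟨hev, fun _ => rfl⟩
      · obtain ⟨h5, h6⟩ := Finset.mem_filter.1 hv
        rw [h.same v h5 h6] at hev
        have h7 : e ∈ (E ∩ iun A F) ∪ p := Or.inl ⟨he, v, h5, hev⟩
        rw [h4 e (Or.inl h7), h1' e h7, h.same _ (h.fam.down.2 v h5 _ Finset.inter_subset_left)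
          fun h8 => h6 (h8.trans Finset.inter_subset_left)]
        exact h1 v h5 e h7 hev
    · have h5 : d ∈ D' := by
        simp only [D', if_pos hwF]
        exact hd
      rw [h4 d (Or.inr h5)]
      exact hD' hwF d hd
  · -- the new model moves into the old one first
    obtain ⟨k, hk, h2, h3⟩ := hM.sym hS h.ind (E ∩ iun A F)
      (fun x hx => Or.inr (h.sub hx.2)) (small_inter_left _ hEc) (E ∩ P r) inter_subset_right hEb
    obtain ⟨g, hg, h1⟩ := h.ref.toward h.fam.down w (E := (E ∩ iun A F) ∪ k '' (E ∩ P r))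
      (union_subset inter_subset_right (by
        rintro _ ⟨x, hx, rfl⟩
        exact ⟨r, h.mem_r, h3 x hx⟩)) (small_union (small_inter_left _ hEc) (small_image k hEb))
    refine ⟨g * k, M.G.mul_mem hg hk, fun v hv e he hev => ?_, fun v hv e he hev => ?_,
      fun _ h4 => absurd h4 hrw⟩
    · have h5 : e ∈ E ∩ iun A F := ⟨he, v, hv, hev⟩
      rw [Equiv.Perm.mul_apply, h2 e h5]
      exact h1 v hv e (Or.inl h5) hev
    · rcases Finset.mem_insert.1 hv with rfl | hv
      · refine ⟨?_, fun h4 => absurd h4 hrw⟩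
        have h5 : ¬ v ⊆ v ∩ w := fun h6 => hrw (h6.trans Finset.inter_subset_right)
        rw [h.same _ (h.fam.down.2 v h.mem_r _ Finset.inter_subset_left) h5]
        exact (h1 v h.mem_r (k e) (Or.inr (mem_image_of_mem k ⟨he, hev⟩)) (h3 e ⟨he, hev⟩)).1
      · obtain ⟨h5, h6⟩ := Finset.mem_filter.1 hv
        rw [h.same v h5 h6] at hev
        have h7 : e ∈ E ∩ iun A F := ⟨he, v, h5, hev⟩
        rw [Equiv.Perm.mul_apply, h2 e h7, h.same _ (h.fam.down.2 v h5 _
          Finset.inter_subset_left) fun h8 => h6 (h8.trans Finset.inter_subset_left)]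
        exact h1 v h5 e (Or.inl h7) hev

/-- Lifting of the isolation of a new face. -/
theorem lift (h : Blk M A P F r Q) (hF' : Down F') (hsub : F' ⊆ F) (h0 : lowf F r ⊆ F')
    (hR : KeyR M A P F F' r Q) {w₁ : Finset ι} (hw₁ : w₁ ∈ F) (hw₁' : w₁ ∉ F')
    (hw : ∀ q, q ⊂ w₁ → q ∈ F') {E : Set C} (hE : E ⊆ P w₁) (hEc : #E < M.χ) :
    ∃ b ⊆ nbd A P r w₁, #b < M.χ ∧ M.Isol b (Q ∪ iun P F') E := by
  have hrw : r ⊂ w₁ := ssubset_of_notMem_lowf hw₁ fun h1 => hw₁' (h0 h1)
  obtain ⟨b, hb, hbc, hiso⟩ := (h.atomic w₁ hw₁ hrw).iso E hE hEc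
  refine ⟨b, hb, hbc, hiso.lift ?_ hb hbc⟩
  intro y hy hyc D hD hDc
  obtain ⟨g, hg, h1, h2, h3⟩ := hR w₁ (y ∪ (D ∩ iun P F')) (by
    rintro x (hx | hx)
    · rcases hy hx with h4 | ⟨q, hq1, hq2, hxq⟩
      · exact Or.inl ⟨w₁, hw₁, h4⟩
      · exact Or.inr ⟨q, hw q hq2, hxq⟩
    · exact Or.inr hx.2) (small_union hyc (small_inter_left _ hDc)) (D ∩ Q) inter_subset_right
    (small_inter_left _ hDc)
  refine ⟨g, hg, fun a ha => ?_, fun d hd => ?_⟩
  · rcases hy ha with h4 | ⟨q, hq1, hq2, hxq⟩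
    · exact (h1 w₁ hw₁ a (Or.inl ha) h4).2 (Finset.Subset.refl _)
    · exact (h2 q (hw q hq2) a (Or.inl ha) hxq).2 hq2.1
  · rcases hD hd with h4 | h4
    · exact Or.inl (h3 hw₁ hrw.1 d ⟨hd, h4⟩)
    · obtain ⟨v, hv, hdv⟩ := h4
      have h5 := (h2 v hv d (Or.inr ⟨hd, v, hv, hdv⟩) hdv).1
      by_cases h6 : r ⊆ v ∩ w₁
      · refine Or.inr ⟨v ∩ w₁, h6, ?_, h5⟩
        refine lt_of_le_of_ne Finset.inter_subset_right fun h7 => hw₁' (hF'.2 v hv w₁ ?_)
        rw [← h7]
        exact Finset.inter_subset_left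
      · rw [h.same _ (h.fam.down.2 v (hsub hv) _ Finset.inter_subset_left) h6] at h5
        exact Or.inl (h.fam.mono w₁ hw₁ _ Finset.inter_subset_right h5)

/-- All the reflections. -/
theorem key (hM : M.Calc) (h : Blk M A P F r Q) : KeyR M A P F F r Q ∧ KeyC M A P F Q := by
  have main : ∀ F', Down F' → lowf F r ⊆ F' → F' ⊆ F → KeyR M A P F F' r Q ∧
      KeyC M A P F' Q := by
    refine down_induction_from (p := fun F' => F' ⊆ F → KeyR M A P F F' r Q ∧
      KeyC M A P F' Q) (down_lowf h.fam.down h.mem_r)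
      (fun _ => ⟨h.key0R hM, h.key0C hM⟩) ?_
    intro F' w₁ hF' h0 hw₁' hw ih hsub'
    have hsub : F' ⊆ F := (Finset.subset_insert w₁ F').trans hsub'
    have hw₁ : w₁ ∈ F := hsub' (Finset.mem_insert_self w₁ F')
    obtain ⟨hR, hC⟩ := ih hsub
    have hrw : r ⊂ w₁ := ssubset_of_notMem_lowf hw₁ fun h1 => hw₁' (h0 h1)
    constructor
    · intro w E hE hEc D hD hDc
      have hEw : #(E ∩ P w₁ : Set C) < M.χ := small_inter_left _ hEc
      obtain ⟨b, hb, hbc, hiso⟩ := h.lift hF' hsub h0 hR hw₁ hw₁' hw (E := E ∩ P w₁)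
        inter_subset_right hEw
      have hbs : b ⊆ iun A F ∪ iun P F' := by
        intro x hx
        rcases hb hx with h4 | ⟨q, hq1, hq2, hxq⟩
        · exact Or.inl ⟨w₁, hw₁, h4⟩
        · exact Or.inr ⟨q, hw q hq2, hxq⟩
      let E1 : Set C := (E ∩ (iun A F ∪ iun P F')) ∪ b
      have hE1 : E1 ⊆ iun A F ∪ iun P F' := union_subset inter_subset_right hbs
      have hE1c : #E1 < M.χ := small_union (small_inter_left _ hEc) hbc
      have hE1Q : E1 ⊆ Q ∪ iun P F' := hE1.trans (union_subset_union_left _ h.sub)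
      obtain ⟨g, hg, h1, h2, h3⟩ := hR w E1 hE1 hE1c D hD hDc
      have hED : E1 ∪ D ⊆ Q ∪ iun P F' := union_subset hE1Q (hD.trans subset_union_left)
      have hEDc : #(E1 ∪ D : Set C) < M.χ := small_union hE1c hDc
      -- it is enough to find the values on the new face
      suffices hsuf : ∃ l ∈ M.G, (∀ x ∈ E1 ∪ D, l x = x) ∧ (∀ x ∈ E ∩ P w₁,
          g (l x) ∈ P (w₁ ∩ w) ∧ (w₁ ⊆ w → g (l x) = x)) by
        obtain ⟨l, hl, h4, h5⟩ := hsuf
        refine ⟨g * l, M.G.mul_mem hg hl, fun v hv e he hev => ?_, fun v hv e he hev => ?_,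
          fun hwF hrw' d hd => ?_⟩
        · have h6 : e ∈ E1 := Or.inl ⟨he, Or.inl ⟨v, hv, hev⟩⟩
          rw [Equiv.Perm.mul_apply, h4 e (Or.inl h6)]
          exact h1 v hv e h6 hev
        · rcases Finset.mem_insert.1 hv with rfl | hv
          · exact h5 e ⟨he, hev⟩
          · have h6 : e ∈ E1 := Or.inl ⟨he, Or.inr ⟨v, hv, hev⟩⟩
            rw [Equiv.Perm.mul_apply, h4 e (Or.inl h6)]
            exact h2 v hv e h6 hev
        · rw [Equiv.Perm.mul_apply, h4 d (Or.inr hd)]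
          exact h3 hwF hrw' d hd
      by_cases hw1w : w₁ ⊆ w
      · have hgb : ∀ x ∈ b, g x = x := by
          intro x hx
          rcases hb hx with h4 | ⟨q, hq1, hq2, hxq⟩
          · exact (h1 w₁ hw₁ x (Or.inr hx) h4).2 hw1w
          · exact (h2 q (hw q hq2) x (Or.inr hx) hxq).2 (hq2.1.trans hw1w)
        obtain ⟨l, hl, h4, h5⟩ := hiso g⁻¹ (M.G.inv_mem hg) (fun x hx => fix_inv (hgb x hx))
          _ hED hEDc
        refine ⟨l, hl, h4, fun x hx => ?_⟩
        rw [h5 x hx, ap_inv, Finset.inter_eq_left.2 hw1w]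
        exact ⟨hx.2, fun _ => rfl⟩
      · have hlt : w₁ ∩ w ⊂ w₁ := lt_of_le_of_ne Finset.inter_subset_left fun h4 =>
          hw1w (Finset.inter_eq_left.1 h4)
        have hmF : w₁ ∩ w ∈ F := h.fam.down.2 w₁ hw₁ _ hlt.1
        have hgb : ∀ x ∈ b, g x ∈ P (w₁ ∩ w) := by
          intro x hx
          rcases hb hx with h4 | ⟨q, hq1, hq2, hxq⟩
          · exact h.le hmF (h1 w₁ hw₁ x (Or.inr hx) h4).1
          · exact h.mono hmF (Finset.inter_subset_inter_right hq2.1)
              (h2 q (hw q hq2) x (Or.inr hx) hxq).1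
        obtain ⟨k, hk, h4, h5⟩ := M.sat (h.mem hmF) (A := g '' b) (B := g '' (E ∩ P w₁)) (by
          rintro _ ⟨x, hx, rfl⟩
          exact hgb x hx) (small_image g hbc) (small_image g hEw)
        obtain ⟨l, hl, h6, h7⟩ := hiso (g⁻¹ * k * g) (M.G.mul_mem (M.G.mul_mem
          (M.G.inv_mem hg) hk) hg) (fun x hx => by
            change g⁻¹ (k (g x)) = x
            rw [h4 _ (mem_image_of_mem g hx), inv_ap]) _ hED hEDc
        refine ⟨l, hl, h6, fun x hx => ⟨?_, fun h8 => absurd h8 hw1w⟩⟩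
        rw [h7 x hx]
        change g (g⁻¹ (k (g x))) ∈ _
        rw [ap_inv]
        exact h5 _ (mem_image_of_mem g hx)
    · intro E hE hEc D hD hDc
      have hEw : #(E ∩ P w₁ : Set C) < M.χ := small_inter_left _ hEc
      obtain ⟨b, hb, hbc, hiso⟩ := h.lift hF' hsub h0 hR hw₁ hw₁' hw (E := E ∩ P w₁)
        inter_subset_right hEw
      obtain ⟨g, hg, h1, h2⟩ := hC ((E ∩ iun P F') ∪ (b ∩ iun P F'))
        (union_subset inter_subset_right inter_subset_right)
        (small_union (small_inter_left _ hEc) (small_inter_left _ hbc)) (D ∪ (b ∩ A w₁))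
        (union_subset hD (inter_subset_right.trans (h.sub_face hw₁)))
        (small_union hDc (small_inter_left _ hbc))
      have hgb : ∀ x ∈ b, g x ∈ A w₁ := by
        intro x hx
        rcases hb hx with h4 | ⟨q, hq1, hq2, hxq⟩
        · rw [h1 x (Or.inr ⟨hx, h4⟩)]
          exact h4
        · exact h.fam.mono w₁ hw₁ q hq2.1 (h2 q (hw q hq2) x
            (Or.inr ⟨hx, q, hw q hq2, hxq⟩) hxq)
      obtain ⟨k, hk, h4, h5⟩ := M.sat (h.fam.mem w₁ hw₁) (A := g '' b)
        (B := g '' (E ∩ P w₁)) (by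
          rintro _ ⟨x, hx, rfl⟩
          exact hgb x hx) (small_image g hbc) (small_image g hEw)
      obtain ⟨l, hl, h6, h7⟩ := hiso (g⁻¹ * k * g) (M.G.mul_mem (M.G.mul_mem
          (M.G.inv_mem hg) hk) hg) (fun x hx => by
            change g⁻¹ (k (g x)) = x
            rw [h4 _ (mem_image_of_mem g hx), inv_ap]) ((E ∩ iun P F') ∪ D)
        (union_subset (inter_subset_right.trans subset_union_right)
          (hD.trans subset_union_left)) (small_union (small_inter_left _ hEc) hDc)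
      refine ⟨g * l, M.G.mul_mem hg hl, fun d hd => ?_, fun v hv e he hev => ?_⟩
      · rw [Equiv.Perm.mul_apply, h6 d (Or.inr hd), h1 d (Or.inl hd)]
      · rcases Finset.mem_insert.1 hv with rfl | hv
        · rw [Equiv.Perm.mul_apply, h7 e ⟨he, hev⟩]
          change g (g⁻¹ (k (g e))) ∈ _
          rw [ap_inv]
          exact h5 _ (mem_image_of_mem g ⟨he, hev⟩)
        · have h8 : e ∈ E ∩ iun P F' := ⟨he, v, hv, hev⟩
          rw [Equiv.Perm.mul_apply, h6 e (Or.inl h8)]
          exact h2 v hv e (Or.inl h8) hev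
  exact main F h.fam.down (lowf_sub h.mem_r) Finset.Subset.rfl

/-- The new family is independent. -/
theorem refP (hM : M.Calc) (h : Blk M A P F r Q) : IRef M P F := by
  intro x E hE hEc
  obtain ⟨g, hg, -, h2, -⟩ := (h.key hM).1 ((F.biUnion id).erase x) E
    (hE.trans subset_union_right) hEc ∅ (empty_subset Q) (small_finite finite_empty)
  refine ⟨g, hg, fun v hv e he hev => ?_⟩
  have h3 := h2 v hv e he hev
  have h4 : v ∩ (F.biUnion id).erase x = v.erase x := by
    ext z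
    simp only [Finset.mem_inter, Finset.mem_erase, Finset.mem_biUnion, id]
    constructor
    · rintro ⟨h5, h6, -⟩
      exact ⟨h6, h5⟩
    · rintro ⟨h5, h6⟩
      exact ⟨h6, h5, v, hv, h6⟩
  rw [h4] at h3
  refine ⟨h3.1, fun h5 => h3.2 fun z hz => Finset.mem_erase.2 ⟨?_, Finset.mem_biUnion.2
    ⟨v, hv, hz⟩⟩⟩
  rintro rfl
  exact h5 hz

/-- The new family reflects into the old one over `Q`. -/
theorem refC (hM : M.Calc) (h : Blk M A P F r Q) : KeyC M A P F Q := (h.key hM).2

end Blk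

end Vale.Agent.P307.R2.H533
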