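import Vale.Agent.P307.R2.H533.Enl

/-!
Existence of the enlargement of one face.
-/

universe u v

open Set Cardinal Function

namespace Vale.Agent.P307.R2.H533

open Vale.Agent.P307.R2.H541 Vale.Agent.P307.R2.H541.PG

open scoped Classical

variable {ι : Type v} {C : Type u} {M : PG C}

variable {A P : Finset ι → Set C} {F F' : Finset (Finset ι)} {r : Finset ι} {Q B : Set C}

theorem nbd_congr {P' : Finset ι → Set C} {v : Finset ι} (h : ∀ w, w ⊂ v → P w = P' w) :
    nbd A P r v = nbd A P' r v := by
  unfold nbd
  congr 1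
  ext x
  constructor
  · rintro ⟨w, h1, h2, h3⟩
    exact ⟨w, h1, h2, by rwa [← h w h2]⟩
  · rintro ⟨w, h1, h2, h3⟩
    exact ⟨w, h1, h2, by rwa [h w h2]⟩

/-- The system at `r`, with the new faces in the direction `c`. -/
noncomputable def lnk (A P : Finset ι → Set C) (r : Finset ι) (c : ι) (t : Finset ι) : Set C :=
  if c ∈ t then P (r ∪ t) else A (r ∪ t)

theorem ibd_lnk {c : ι} (hc : c ∈ r) {u : Finset ι} (hu : Disjoint u r)
    (hmono : ∀ w, w ⊆ u → A (r ∪ w) ⊆ A (r ∪ u)) :
    ibd (lnk A P r c) (insert c u) = nbd A P r (r ∪ u) := by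
  have hcu : c ∉ u := fun h => Finset.disjoint_left.1 hu h hc
  ext x
  constructor
  · rintro ⟨t, ht, hx⟩
    by_cases hct : c ∈ t
    · simp only [lnk, if_pos hct] at hx
      refine Or.inr ⟨r ∪ t, Finset.subset_union_left, ?_, hx⟩
      have h1 : t ⊆ insert c u := ht.1
      refine lt_of_le_of_ne ?_ ?_
      · intro z hz
        rcases Finset.mem_union.1 hz with h2 | h2
        · exact Finset.mem_union_left _ h2
        · rcases Finset.mem_insert.1 (h1 h2) with rfl | h3
          · exact Finset.mem_union_left _ hc
          · exact Finset.mem_union_right _ h3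
      · intro h2
        apply ht.2
        intro z hz
        rcases Finset.mem_insert.1 hz with rfl | h3
        · exact hct
        · have h4 : z ∈ r ∪ t := by
            rw [h2]
            exact Finset.mem_union_right _ h3
          rcases Finset.mem_union.1 h4 with h5 | h5
          · exact absurd h5 (Finset.disjoint_left.1 hu h3)
          · exact h5
    · simp only [lnk, if_neg hct] at hx
      left
      refine hmono t ?_ hx
      intro z hz
      rcases Finset.mem_insert.1 (ht.1 hz) with rfl | h3
      · exact absurd hz hct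
      · exact h3
  · rintro (hx | ⟨w, hw1, hw2, hx⟩)
    · refine ⟨u, Finset.ssubset_insert hcu, ?_⟩
      simp only [lnk, if_neg hcu]
      exact hx
    · have h1 : w \ r ⊂ u := by
        refine lt_of_le_of_ne ?_ ?_
        · intro z hz
          rw [Finset.mem_sdiff] at hz
          rcases Finset.mem_union.1 (hw2.1 hz.1) with h2 | h2
          · exact absurd h2 hz.2
          · exact h2
        · intro h2
          apply hw2.2
          intro z hz
          rcases Finset.mem_union.1 hz with h3 | h3
          · exact hw1 h3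
          · rw [← h2] at h3
            exact (Finset.mem_sdiff.1 h3).1
      refine ⟨insert c (w \ r), insert_ssubset_insert' hcu h1, ?_⟩
      have h2 : r ∪ insert c (w \ r) = w := by
        ext z
        simp only [Finset.mem_union, Finset.mem_insert, Finset.mem_sdiff]
        constructor
        · rintro (h3 | rfl | h3)
          · exact hw1 h3
          · exact hw1 hc
          · exact h3.1
        · intro h3
          by_cases h4 : z ∈ r
          · exact Or.inl h4
          · exact Or.inr (Or.inr ⟨h3, h4⟩)
      simp only [lnk, if_pos (Finset.mem_insert_self c (w \ r)), h2]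
      exact hx

/-- The system at `r` in the direction of the new faces. -/
theorem ext1_lnk {c : ι} (hc : c ∈ r) {v : Finset ι} (hrv : r ⊆ v) (hA : ISys M A v)
    (hB : P r ∈ M.S) (hAB : A r ⊆ P r) (hind : M.Ind (A r) (P r) (A v))
    (hat : ∀ w, r ⊂ w → w ⊂ v → M.Atomic (P w) (nbd A P r w)) :
    Ext1 M (lnk A P r c) (v \ r) c := by
  have hrc : r ∪ {c} = r := Finset.union_eq_left.2 (Finset.singleton_subset_iff.2 hc)
  have h0 : lnk A P r c ∅ = A r := by
    simp only [lnk, Finset.notMem_empty, if_false, Finset.union_empty]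
  have h1 : lnk A P r c {c} = P r := by
    simp only [lnk, Finset.mem_singleton, if_true, hrc]
  have hcv : c ∉ v \ r := fun h => (Finset.mem_sdiff.1 h).2 hc
  have h2 : ∀ t, t ⊆ v \ r → A (r ∪ t) = lnk A P r c t := fun t ht => by
    simp only [lnk, if_neg fun h => hcv (ht h)]
  refine ⟨(hA.link hrv).congr h2, hcv, ?_, ?_, ?_, fun u hu hu0 => ?_⟩
  · rw [h1]
    exact hB
  · rw [h0, h1]
    exact hAB
  · rw [h0, h1, ← h2 _ (Finset.Subset.refl _), Finset.union_sdiff_of_subset hrv]
    exact hind
  · have hd : Disjoint u r := Finset.disjoint_left.2 fun z hz hz' =>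
      (Finset.mem_sdiff.1 (hu.1 hz)).2 hz'
    have h3 : lnk A P r c (insert c u) = P (r ∪ u) := by
      simp only [lnk, if_pos (Finset.mem_insert_self c u)]
      congr 1
      rw [Finset.union_insert, Finset.insert_eq_of_mem (Finset.mem_union_left _ hc)]
    have huv : r ∪ u ⊆ v := Finset.union_subset hrv (hu.1.trans Finset.sdiff_subset)
    rw [h3, ibd_lnk hc hd fun w hw => hA.mono huv (Finset.union_subset_union_right hw)]
    refine hat _ ?_ ?_
    · refine lt_of_le_of_ne Finset.subset_union_left fun h4 => ?_
      obtain ⟨z, hz⟩ := hu0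
      have h5 : z ∈ r := by
        rw [h4]
        exact Finset.mem_union_right _ hz
      exact Finset.disjoint_left.1 hd hz h5
    · refine lt_of_le_of_ne huv fun h4 => hu.2 ?_
      intro z hz
      obtain ⟨h5, h6⟩ := Finset.mem_sdiff.1 hz
      rw [← h4] at h5
      exact (Finset.mem_union.1 h5).resolve_left h6

/-- **Enlargement of one face.** -/
theorem exists_blk (hA : IFam M A F) (hR : IRef M A F) (hr : r ∈ F) (hr0 : r.Nonempty)
    (hQ : iun A F ⊆ Q) (hB : B ∈ M.S) (hAB : A r ⊆ B) (hind : M.Ind (A r) B Q)
    (hMd : ∀ v ∈ F, r ⊂ v → Md M ι (v \ r).card) : ∃ P : Finset ι → Set C, P r = B ∧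
      Blk M A P F r Q := by
  obtain ⟨c, hc⟩ := hr0
  have key : ∀ F', Down F' → lowf F r ⊆ F' → F' ⊆ F → ∃ P : Finset ι → Set C, P r = B ∧
      (∀ v ∈ F, ¬ r ⊆ v → P v = A v) ∧ ∀ v ∈ F', r ⊂ v → M.Atomic (P v) (nbd A P r v) := by
    refine down_induction_from (p := fun F' => F' ⊆ F → ∃ P : Finset ι → Set C, P r = B ∧
      (∀ v ∈ F, ¬ r ⊆ v → P v = A v) ∧ ∀ v ∈ F', r ⊂ v → M.Atomic (P v) (nbd A P r v))
      (down_lowf hA.down hr) ?_ ?_
    · intro _
      refine ⟨update A r B, update_self _ _ _, fun v hv h1 => ?_, fun v hv h1 => ?_⟩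
      · rw [update_of_ne]
        rintro rfl
        exact h1 (Finset.Subset.refl _)
      · rcases Finset.mem_insert.1 hv with rfl | hv
        · exact absurd h1 (lt_irrefl _)
        · exact absurd h1.1 (Finset.mem_filter.1 hv).2
    · intro F' w hF' h0 hwF' hw ih hsub'
      have hsub : F' ⊆ F := (Finset.subset_insert w F').trans hsub'
      have hwF : w ∈ F := hsub' (Finset.mem_insert_self w F')
      have hrw : r ⊂ w := ssubset_of_notMem_lowf hwF fun h1 => hwF' (h0 h1)
      obtain ⟨P, h1, h2, h3⟩ := ih hsub
      have hE : Ext1 M (lnk A P r c) (w \ r) c := by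
        refine ext1_lnk hc hrw.1 (hA.isys hR hwF) ?_ ?_ ?_ fun q hq1 hq2 =>
          h3 q (hw q hq2) hq1
        · rw [h1]
          exact hB
        · rw [h1]
          exact hAB
        · rw [h1]
          exact hind.mono Subset.rfl fun x hx => hQ ⟨w, hwF, hx⟩
      obtain ⟨N, hN⟩ := hMd w hwF hrw (lnk A P r c) (w \ r) c rfl hE
      have hdis : Disjoint (w \ r) r := Finset.sdiff_disjoint
      have hun : r ∪ (w \ r) = w := Finset.union_sdiff_of_subset hrw.1
      rw [ibd_lnk hc hdis fun q hq => (hA.isys hR hwF).mono (by rw [hun])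
        (Finset.union_subset_union_right hq), hun] at hN
      refine ⟨update P w N, ?_, fun v hv h4 => ?_, fun v hv h4 => ?_⟩
      · rw [update_of_ne hrw.ne]
        exact h1
      · rw [update_of_ne]
        · exact h2 v hv h4
        · rintro rfl
          exact h4 hrw.1
      · rcases Finset.mem_insert.1 hv with rfl | hv'
        · rw [update_self, ← nbd_congr (P := P) fun q hq => by rw [update_of_ne hq.ne]]
          exact hN
        · have hvw : v ≠ w := by
            rintro rfl
            exact hwF' hv'
          rw [update_of_ne hvw, ← nbd_congr (P := P) fun q hq => by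
            rw [update_of_ne]
            rintro rfl
            exact hwF' (hF'.2 v hv' _ hq.1)]
          exact h3 v hv' h4
  obtain ⟨P, h1, h2, h3⟩ := key F hA.down (lowf_sub hr) Finset.Subset.rfl
  refine ⟨P, h1, hA, hR, hr, hQ, ?_, ?_, ?_, h2, h3⟩
  · rw [h1]
    exact hB
  · rw [h1]
    exact hAB
  · rw [h1]
    exact hind

end Vale.Agent.P307.R2.H533
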