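import Vale.Agent.P307.R2.H533.GDI

/-!
Hulls for an arbitrary family of faces, and atomic models over a cone of faces.
-/

set_option linter.unusedSectionVars false

universe u v

open Set Cardinal Function

namespace Vale.Agent.P307.R2.H533

open Vale.Agent.P307.R2.H541 Vale.Agent.P307.R2.H541.PG

open scoped Classical

variable {ι : Type v} {C : Type u} {M : PG C}

variable {A D : Finset ι → Set C} {F F' W : Finset (Finset ι)} {s w : Finset ι} {Q B : Set C}

theorem down_insert (hF : Down F) (hw : ∀ q, q ⊂ w → q ∈ F) : Down (insert w F) := by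
  refine ⟨Finset.mem_insert_of_mem hF.1, fun v hv q hq => ?_⟩
  rcases Finset.mem_insert.1 hv with rfl | hv
  · rcases eq_or_ne q v with rfl | hne
    · exact Finset.mem_insert_self _ _
    · exact Finset.mem_insert_of_mem (hw q (lt_of_le_of_ne hq hne))
  · exact Finset.mem_insert_of_mem (hF.2 v hv q hq)

variable (M) in
/-- The faces of `W` and hulls of the other ones. -/
structure HullF (A D : Finset ι → Set C) (F W : Finset (Finset ι)) : Prop where
  fam : IFam M A F
  ref : IRef M A F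
  down : Down W
  subW : W ⊆ F
  eq : ∀ v ∈ W, D v = A v
  sub : ∀ v ∈ F, D v ⊆ A v
  atomic : ∀ v ∈ F, v ∉ W → M.Atomic (D v) (ibd D v)

namespace HullF

variable (h : HullF M A D F W)

include h

theorem mem {v : Finset ι} (hv : v ∈ F) : D v ∈ M.S := by
  by_cases h1 : v ∈ W
  · rw [h.eq v h1]
    exact h.fam.mem v (h.subW h1)
  · exact (h.atomic v hv h1).mem

theorem mono {v w : Finset ι} (hv : v ∈ F) (hw : w ⊆ v) : D w ⊆ D v := by
  rcases eq_or_ne w v with rfl | hne
  · exact Subset.rfl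
  have hwv : w ⊂ v := lt_of_le_of_ne hw hne
  by_cases h1 : v ∈ W
  · rw [h.eq v h1, h.eq w (h.down.2 v h1 w hw)]
    exact h.fam.mono v (h.subW h1) w hw
  · exact fun x hx => (h.atomic v hv h1).sub ⟨w, hwv, hx⟩

theorem famD : IFam M D F :=
  ⟨h.fam.down, fun _ ht => h.mem ht, fun _ ht _ hr => h.mono ht hr⟩

/-- The faces reflect into the hulls over the hulls. -/
theorem key (hM : M.Calc) (hG : ∀ v ∈ F, 2 ≤ v.card → GDI M ι v.card) :
    ∀ E ⊆ iun A F, #E < M.χ → ∀ E' ⊆ iun D F, #E' < M.χ → ∃ g ∈ M.G,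
      (∀ e ∈ E', g e = e) ∧ ∀ v ∈ F, ∀ e ∈ E, e ∈ A v → g e ∈ D v := by
  have hdom : ∀ {F' : Finset (Finset ι)}, F' ⊆ F → iun D F' ⊆ iun A F' := by
    rintro F' hF' x ⟨v, hv, hx⟩
    exact ⟨v, hv, h.sub v (hF' hv) hx⟩
  have main : ∀ F', Down F' → W ⊆ F' → F' ⊆ F → ∀ E ⊆ iun A F', #E < M.χ →
      ∀ E' ⊆ iun D F', #E' < M.χ → ∃ g ∈ M.G, (∀ e ∈ E', g e = e) ∧
        ∀ v ∈ F', ∀ e ∈ E, e ∈ A v → g e ∈ D v := by
    refine down_induction_from (p := fun F' => F' ⊆ F → ∀ E ⊆ iun A F', #E < M.χ →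
      ∀ E' ⊆ iun D F', #E' < M.χ → ∃ g ∈ M.G, (∀ e ∈ E', g e = e) ∧
        ∀ v ∈ F', ∀ e ∈ E, e ∈ A v → g e ∈ D v) h.down ?_ ?_
    · intro _ E hE hEc E' hE' hEc'
      refine ⟨1, M.G.one_mem, fun _ _ => rfl, fun v hv e he hev => ?_⟩
      rw [h.eq v hv]
      exact hev
    intro F' w hF' h0 hwF' hw ih hsub' E hE hEc E' hE' hEc'
    have hsub : F' ⊆ F := (Finset.subset_insert w F').trans hsub'
    have hwF : w ∈ F := hsub' (Finset.mem_insert_self w F')
    have hwW : w ∉ W := fun h1 => hwF' (h0 h1)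
    have hw0 : w.Nonempty := by
      rw [Finset.nonempty_iff_ne_empty]
      rintro rfl
      exact hwF' hF'.1
    have hqF : ∀ q, q ⊂ w → q ∈ F := fun q hq => hsub (hw q hq)
    have IH := ih hsub
    have hRF : IRef M A F' := h.ref.mono hsub
    obtain ⟨N, hN, hNw⟩ := exists_hull h.fam h.ref hwF hw0 (hG w hwF)
    -- the pieces
    have hEr : E ∩ iun A F' ⊆ iun A F' := inter_subset_right
    have hErc : #(E ∩ iun A F' : Set C) < M.χ := small_inter_left _ hEc
    have hE'r : E' ∩ iun D F' ⊆ iun D F' := inter_subset_right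
    have hE'rc : #(E' ∩ iun D F' : Set C) < M.χ := small_inter_left _ hEc'
    have hac : #((E ∩ A w) ∪ (E' ∩ D w) : Set C) < M.χ :=
      small_union (small_inter_left _ hEc) (small_inter_left _ hEc')
    -- isolation of the part in the hull
    have htv : M.TV (ibd D w) (iun A F') := by
      intro y hy hyc z hz hzc
      have hyA : y ⊆ iun A F' := by
        intro x hx
        obtain ⟨q, hq, hxq⟩ := hy hx
        exact ⟨q, hw q hq, h.sub q (hqF q hq) hxq⟩
      obtain ⟨g, hg, h1⟩ := hRF.toward hF' w (E := y ∪ z) (union_subset hyA hz)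
        (small_union hyc hzc)
      have hgz : ∀ x ∈ g '' z, ∃ q, q ⊂ w ∧ x ∈ A q := by
        rintro _ ⟨x, hx, rfl⟩
        obtain ⟨q, hq, hxq⟩ := hz hx
        refine ⟨q ∩ w, ?_, (h1 q hq x (Or.inr hx) hxq).1⟩
        refine lt_of_le_of_ne Finset.inter_subset_right fun h2 => hwF' (hF'.2 q hq w ?_)
        rw [← h2]
        exact Finset.inter_subset_left
      obtain ⟨k, hk, h2, h3⟩ := IH (g '' z) (fun x hx => by
          obtain ⟨q, hq, hxq⟩ := hgz x hx
          exact ⟨q, hw q hq, hxq⟩) (small_image g hzc) y (fun x hx => by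
          obtain ⟨q, hq, hxq⟩ := hy hx
          exact ⟨q, hw q hq, hxq⟩) hyc
      refine ⟨k * g, M.G.mul_mem hk hg, fun a ha => ?_, fun d hd => ?_⟩
      · obtain ⟨q, hq, haq⟩ := hy ha
        rw [Equiv.Perm.mul_apply, (h1 q (hw q hq) a (Or.inl ha)
          (h.sub q (hqF q hq) haq)).2 hq.1, h2 a ha]
      · obtain ⟨q, hq, hdq⟩ := hgz (g d) (mem_image_of_mem g hd)
        exact ⟨q, hq, h3 q (hw q hq) (g d) (mem_image_of_mem g hd) hdq⟩
    obtain ⟨b, hb, hbc, hbiso⟩ := (h.atomic w hwF hwW).iso (E' ∩ D w) inter_subset_right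
      (small_inter_left _ hEc')
    have hiso1 : M.Isol b (iun A F') (E' ∩ D w) := hbiso.lift htv hb hbc
    have hbD : b ⊆ iun D F' := by
      intro x hx
      obtain ⟨q, hq, hxq⟩ := hb hx
      exact ⟨q, hw q hq, hxq⟩
    -- the first move
    have hind : M.Ind N (A w) (iun A F') := ind_hull h.fam h.ref hwF hF' hsub hwF' hN.sub hNw
    obtain ⟨g0, hg0, h01, h02⟩ := hM.sym hN.mem hind
      (((E ∩ iun A F') ∪ (E' ∩ iun D F')) ∪ b)
      (fun x hx => Or.inr (by
        rcases hx with (hx | hx) | hx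
        · exact hx.2
        · exact hdom hsub hx.2
        · exact hdom hsub (hbD hx)))
      (small_union (small_union hErc hE'rc) hbc) ((E ∩ A w) ∪ (E' ∩ D w))
      (union_subset inter_subset_right (inter_subset_right.trans (h.sub w hwF))) hac
    -- isolation of the moved tuple
    obtain ⟨b2, hb2, hb2c, hb2iso⟩ := hN.iso (g0 '' ((E ∩ A w) ∪ (E' ∩ D w))) (by
      rintro _ ⟨x, hx, rfl⟩
      exact h02 x hx) (small_image g0 hac)
    have hiso2 := hb2iso.lift (hRF.tv hF' hwF' hw) hb2 hb2c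
    have hb2A : b2 ⊆ iun A F' := by
      intro x hx
      obtain ⟨q, hq, hxq⟩ := hb2 hx
      exact ⟨q, hw q hq, hxq⟩
    -- the second move
    obtain ⟨g1, hg1, h11, h12⟩ := IH ((E ∩ iun A F') ∪ b2) (union_subset hEr hb2A)
      (small_union hErc hb2c) ((E' ∩ iun D F') ∪ b) (union_subset hE'r hbD)
      (small_union hE'rc hbc)
    -- the tests
    have hT : g1 '' (((E ∩ iun A F') ∪ (E' ∩ iun D F')) ∪ b2) ⊆ iun A F' := by
      rintro _ ⟨x, (hx | hx) | hx, rfl⟩
      · obtain ⟨q, hq, hxq⟩ := hx.2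
        exact hdom hsub ⟨q, hq, h12 q hq x (Or.inl hx) hxq⟩
      · rw [h11 x (Or.inl hx)]
        exact hdom hsub hx.2
      · obtain ⟨q, hq, hxq⟩ := hb2 hx
        exact hdom hsub ⟨q, hw q hq, h12 q (hw q hq) x (Or.inr hx) hxq⟩
    obtain ⟨t, ht, ht1, ht2⟩ := hiso1 (g1 * g0) (M.G.mul_mem hg1 hg0) (fun x hx => by
      rw [Equiv.Perm.mul_apply, h01 x (Or.inr hx), h11 x (Or.inr hx)]) _ hT
      (small_image g1 (small_union (small_union hErc hE'rc) hb2c))
    let g2 : Equiv.Perm C := t⁻¹ * g1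
    have hg2 : g2 ∈ M.G := M.G.mul_mem (M.G.inv_mem ht) hg1
    have hg2T : ∀ x ∈ ((E ∩ iun A F') ∪ (E' ∩ iun D F')) ∪ b2, g2 x = g1 x := by
      intro x hx
      change t⁻¹ (g1 x) = g1 x
      exact fix_inv (ht1 _ (mem_image_of_mem g1 hx))
    have hg2e : ∀ x ∈ E' ∩ D w, g2 (g0 x) = x := by
      intro x hx
      change t⁻¹ (g1 (g0 x)) = x
      have h3 := ht2 x hx
      rw [Equiv.Perm.mul_apply] at h3
      rw [← h3, inv_ap]
    -- saturation
    obtain ⟨k, hk, hk1, hk2⟩ := M.sat (h.mem hwF) (A := g2 '' b2 ∪ (E' ∩ D w))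
      (B := g2 '' (g0 '' (E ∩ A w))) (by
        refine union_subset ?_ inter_subset_right
        rintro _ ⟨x, hx, rfl⟩
        rw [hg2T x (Or.inr hx)]
        obtain ⟨q, hq, hxq⟩ := hb2 hx
        exact h.mono hwF hq.1 (h12 q (hw q hq) x (Or.inr hx) hxq))
      (small_union (small_image g2 hb2c) (small_inter_left _ hEc'))
      (small_image g2 (small_image g0 (small_inter_left _ hEc)))
    obtain ⟨l, hl, hl1, hl2⟩ := hiso2 (g2⁻¹ * k * g2) (M.G.mul_mem (M.G.mul_mem
      (M.G.inv_mem hg2) hk) hg2) (fun x hx => by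
        change g2⁻¹ (k (g2 x)) = x
        rw [hk1 _ (Or.inl (mem_image_of_mem g2 hx)), inv_ap])
      ((E ∩ iun A F') ∪ (E' ∩ iun D F')) (union_subset hEr (hE'r.trans (hdom hsub)))
      (small_union hErc hE'rc)
    have hfin : ∀ x, (g2 * l * g0) x = g2 (l (g0 x)) := fun x => rfl
    refine ⟨g2 * l * g0, M.G.mul_mem (M.G.mul_mem hg2 hl) hg0, fun e he => ?_,
      fun v hv e he hev => ?_⟩
    · rw [hfin]
      have h3 := hE' he
      rw [iun_insert] at h3
      rcases h3 with h3 | h3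
      · rw [hl2 _ (mem_image_of_mem g0 (Or.inr ⟨he, h3⟩))]
        change g2 (g2⁻¹ (k (g2 (g0 e)))) = e
        rw [ap_inv, hg2e e ⟨he, h3⟩]
        exact hk1 e (Or.inr ⟨he, h3⟩)
      · rw [h01 e (Or.inl (Or.inr ⟨he, h3⟩)), hl1 e (Or.inr ⟨he, h3⟩),
          hg2T e (Or.inl (Or.inr ⟨he, h3⟩)), h11 e (Or.inl ⟨he, h3⟩)]
    · rw [hfin]
      rcases Finset.mem_insert.1 hv with rfl | hv
      · rw [hl2 _ (mem_image_of_mem g0 (Or.inl ⟨he, hev⟩))]
        change g2 (g2⁻¹ (k (g2 (g0 e)))) ∈ _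
        rw [ap_inv]
        exact hk2 _ (mem_image_of_mem g2 (mem_image_of_mem g0 ⟨he, hev⟩))
      · have h3 : e ∈ E ∩ iun A F' := ⟨he, v, hv, hev⟩
        rw [h01 e (Or.inl (Or.inl h3)), hl1 e (Or.inl h3), hg2T e (Or.inl (Or.inl h3))]
        exact h12 v hv e (Or.inl h3) hev
  exact main F h.fam.down h.subW Finset.Subset.rfl

/-- The hulls are independent. -/
theorem refD (hM : M.Calc) (hG : ∀ v ∈ F, 2 ≤ v.card → GDI M ι v.card) : IRef M D F := by
  intro x E hE hEc
  have hEA : E ⊆ iun A F := by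
    intro e he
    obtain ⟨v, hv, hev⟩ := hE he
    exact ⟨v, hv, h.sub v hv hev⟩
  obtain ⟨g, hg, h1⟩ := h.ref x E hEA hEc
  obtain ⟨k, hk, h2, h3⟩ := h.key hM hG (g '' E) (by
    rintro _ ⟨e, he, rfl⟩
    obtain ⟨v, hv, hev⟩ := hEA he
    exact ⟨v.erase x, down_sdiff_erase h.fam.down hv x, (h1 v hv e he hev).1⟩)
    (small_image g hEc) {e | e ∈ E ∧ ∃ v ∈ F, x ∉ v ∧ e ∈ D v} (by
      rintro e ⟨-, v, hv, -, hev⟩
      exact ⟨v, hv, hev⟩) (small_subset (fun e he => he.1) hEc)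
  refine ⟨k * g, M.G.mul_mem hk hg, fun v hv e he hev => ?_⟩
  have h4 := h1 v hv e he (h.sub v hv hev)
  refine ⟨?_, fun h5 => ?_⟩
  · rw [Equiv.Perm.mul_apply]
    exact h3 _ (down_sdiff_erase h.fam.down hv x) (g e) (mem_image_of_mem g he) h4.1
  · rw [Equiv.Perm.mul_apply, h4.2 h5]
    exact h2 e ⟨he, v, hv, h5, hev⟩

/-- A face is independent from the other hulls over its hull. -/
theorem ind_top (hM : M.Calc) (hG : ∀ v ∈ F, 2 ≤ v.card → GDI M ι v.card)
    {r : Finset ι} (hr : r ∈ F) {R : Set C} (hR : M.Atomic R (iun D F)) :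
    M.Ind (D r) (A r) R := by
  have h1 : M.Ind (D r) (iun D F) (A r) := by
    intro y hy hyc z hz hzc
    obtain ⟨g, hg, h2, h3⟩ := h.key hM hG z (fun x hx => ⟨r, hr, hz hx⟩)
      hzc y (by
        intro x hx
        rcases hy hx with h4 | h4
        · exact ⟨r, hr, h4⟩
        · exact h4) hyc
    exact ⟨g, hg, h2, fun b hb => h3 r hr b hb (hz hb)⟩
  have h3 : iun D F = iun D F ∪ D r := by
    rw [union_eq_self_of_subset_right]
    exact fun x hx => ⟨r, hr, hx⟩
  rw [h3] at hR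
  exact hM.sym (h.mem hr) (hR.dom h1)

/-- Atomicity goes down to smaller families. -/
theorem atomic_down (hM : M.Calc) (hG : ∀ v ∈ F, 2 ≤ v.card → GDI M ι v.card) {R : Set C}
    (hR : M.Atomic R (iun D F)) (hF' : Down F') (hW : W ⊆ F') (hF : F' ⊆ F) :
    M.Atomic R (iun D F') := by
  have hRD : IRef M D F := h.refD hM hG
  have key : ∀ F'', Down F'' → F' ⊆ F'' → F'' ⊆ F → M.Atomic R (iun D F'') →
      M.Atomic R (iun D F') := by
    refine down_induction_from (p := fun F'' => F'' ⊆ F → M.Atomic R (iun D F'') →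
      M.Atomic R (iun D F')) hF' (fun _ h1 => h1) ?_
    intro F'' w hF'' h0 hwF hw ih hsub' hRw
    have hsub : F'' ⊆ F := (Finset.subset_insert w F'').trans hsub'
    have hwF' : w ∈ F := hsub' (Finset.mem_insert_self w F'')
    rw [iun_insert] at hRw
    refine ih hsub (atomic_trans hRw (h.atomic w hwF' fun h1 => hwF (h0 (hW h1)))
      (ibd_sub_iun hw) ?_)
    exact (hRD.mono hsub).tv hF'' hwF hw
  exact key F h.fam.down hF Finset.Subset.rfl hR

end HullF

/-- Existence of the hulls. -/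
theorem exists_hullF (hM : M.Calc) (hA : IFam M A F) (hR : IRef M A F)
    (hG : ∀ v ∈ F, 2 ≤ v.card → GDI M ι v.card) (hW : Down W) (hWF : W ⊆ F) :
    ∃ D, HullF M A D F W := by
  have key : ∀ F', Down F' → W ⊆ F' → F' ⊆ F → ∃ D, HullF M A D F' W := by
    refine down_induction_from (p := fun F' => F' ⊆ F → ∃ D, HullF M A D F' W) hW ?_ ?_
    · intro hsub
      exact ⟨A, hA.sub hW hsub, hR.mono hsub, hW, Finset.Subset.rfl, fun _ _ => rfl,
        fun _ _ => Subset.rfl, fun v hv hv' => absurd hv hv'⟩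
    intro F' w hF' h0 hwF' hw ih hsub'
    have hsub : F' ⊆ F := (Finset.subset_insert w F').trans hsub'
    have hwF : w ∈ F := hsub' (Finset.mem_insert_self w F')
    obtain ⟨D, hD⟩ := ih hsub
    have hG' : ∀ v ∈ F', 2 ≤ v.card → GDI M ι v.card := fun v hv => hG v (hsub hv)
    have hw0 : w.Nonempty := by
      rw [Finset.nonempty_iff_ne_empty]
      rintro rfl
      exact hwF' hF'.1
    have hss : w.ssubsets ⊆ F' := fun q hq => hw q (Finset.mem_ssubsets.1 hq)
    have hbd : ibd D w ⊆ A w := by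
      rintro x ⟨q, hq, hx⟩
      exact hA.mono w hwF q hq.1 (hD.sub q (hw q hq) hx)
    obtain ⟨N, hN, hNw⟩ : ∃ N, M.Atomic N (ibd D w) ∧ N ⊆ A w := by
      rcases Nat.lt_or_ge w.card 2 with h1 | h1
      · have h2 : w.card = 1 := by
          have := Finset.card_pos.2 hw0
          omega
        obtain ⟨x, rfl⟩ := Finset.card_eq_one.1 h2
        rw [ibd_singleton] at hbd ⊢
        exact ⟨D ∅, atomic_self (hD.mem hF'.1), hbd⟩
      · obtain ⟨N, hN⟩ := hG w hwF h1 D w rfl (hD.famD.sub (down_ssubsets hw0) hss)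
          ((hD.refD hM hG').mono hss)
        exact exists_atomic_in hN (hA.mem w hwF) hbd
    have hne : ∀ v ∈ F', v ≠ w := by
      rintro v hv rfl
      exact hwF' hv
    have hibd : ∀ v, v ∈ insert w F' → ibd (update D w N) v = ibd D v := by
      intro v hv
      refine ibd_congr fun q hq => update_of_ne ?_ _ _
      rcases Finset.mem_insert.1 hv with rfl | hv
      · exact hq.ne
      · exact hne q (hF'.2 v hv q hq.1)
    refine ⟨update D w N, hA.sub ?_ hsub', hR.mono hsub', hW, h0.trans (Finset.subset_insert w F'),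
      fun v hv => ?_, fun v hv => ?_, fun v hv hvW => ?_⟩
    · exact down_insert hF' hw
    · rw [update_of_ne (hne v (h0 hv))]
      exact hD.eq v hv
    · rcases Finset.mem_insert.1 hv with rfl | hv'
      · rw [update_self]
        exact hNw
      · rw [update_of_ne (hne v hv')]
        exact hD.sub v hv'
    · rw [hibd v hv]
      rcases Finset.mem_insert.1 hv with rfl | hv'
      · rw [update_self]
        exact hN
      · rw [update_of_ne (hne v hv')]
        exact hD.atomic v hv' hvW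
  exact key F hA.down hWF Finset.Subset.rfl

end Vale.Agent.P307.R2.H533
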