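import Vale.Agent.P307.R2.H541.Ext

/-!
Independent systems of arbitrary models: reflection of a cube when faces are added one by one.
A face is added either as an atomic model over the union of its proper faces, or as an arbitrary
one-dimensional face which is independent from the union of the faces without its direction.
-/

universe u v

open Set Cardinal Function

namespace Vale.Agent.P307.R2.H533

open Vale.Agent.P307.R2.H541 Vale.Agent.P307.R2.H541.PG

open scoped Classical

variable {ι : Type v} {C : Type u} {M : PG C}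

/-- The union of a family of faces. -/
def iun (A : Finset ι → Set C) (F : Finset (Finset ι)) : Set C := {c | ∃ v ∈ F, c ∈ A v}

/-- The union of the proper faces. -/
def ibd (A : Finset ι → Set C) (t : Finset ι) : Set C := {c | ∃ r, r ⊂ t ∧ c ∈ A r}

variable (M) in
/-- Reflection for a family of faces. -/
def IRef (A : Finset ι → Set C) (F : Finset (Finset ι)) : Prop :=
  ∀ x, ∀ E ⊆ iun A F, #E < M.χ →
    ∃ g ∈ M.G, ∀ v ∈ F, ∀ e ∈ E, e ∈ A v → g e ∈ A (v.erase x) ∧ (x ∉ v → g e = e)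

variable (M) in
/-- A family of models indexed by `F`. -/
structure IFam (A : Finset ι → Set C) (F : Finset (Finset ι)) : Prop where
  down : Down F
  mem : ∀ t ∈ F, A t ∈ M.S
  mono : ∀ t ∈ F, ∀ r ⊆ t, A r ⊆ A t

variable (M) in
/-- The faces of `F` outside `F₀` are added one by one. -/
structure Steps (A : Finset ι → Set C) (F₀ F : Finset (Finset ι)) : Prop where
  fam : IFam M A F
  down : Down F₀
  sub : F₀ ⊆ F
  step : ∀ w ∈ F, w ∉ F₀ → M.Atomic (A w) (ibd A w) ∨
    ∃ y, w = {y} ∧ M.Ind (A ∅) (A w) (iun A (F.filter fun v => y ∉ v))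

variable {A A' : Finset ι → Set C} {F F₀ : Finset (Finset ι)} {s : Finset ι}

theorem iun_insert (w : Finset ι) (F : Finset (Finset ι)) :
    iun A (insert w F) = A w ∪ iun A F := by
  ext c
  constructor
  · rintro ⟨v, hv, hc⟩
    rcases Finset.mem_insert.1 hv with rfl | hv
    · exact Or.inl hc
    · exact Or.inr ⟨v, hv, hc⟩
  · rintro (hc | ⟨v, hv, hc⟩)
    · exact ⟨w, Finset.mem_insert_self w F, hc⟩
    · exact ⟨v, Finset.mem_insert_of_mem hv, hc⟩

theorem iun_mono {F' : Finset (Finset ι)} (h : F ⊆ F') : iun A F ⊆ iun A F' := by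
  rintro c ⟨v, hv, hc⟩
  exact ⟨v, h hv, hc⟩

theorem ibd_congr {t : Finset ι} (h : ∀ r, r ⊂ t → A r = A' r) : ibd A t = ibd A' t := by
  ext c
  constructor
  · rintro ⟨r, hr, hc⟩
    exact ⟨r, hr, by rwa [← h r hr]⟩
  · rintro ⟨r, hr, hc⟩
    exact ⟨r, hr, by rwa [h r hr]⟩

theorem iun_congr (h : ∀ r ∈ F, A r = A' r) : iun A F = iun A' F := by
  ext c
  constructor
  · rintro ⟨r, hr, hc⟩
    exact ⟨r, hr, by rwa [← h r hr]⟩
  · rintro ⟨r, hr, hc⟩
    exact ⟨r, hr, by rwa [h r hr]⟩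

theorem ibd_sub_iun {w : Finset ι} (hw : ∀ r, r ⊂ w → r ∈ F) : ibd A w ⊆ iun A F := by
  rintro c ⟨r, hr, hc⟩
  exact ⟨r, hw r hr, hc⟩

theorem down_sdiff_erase {F : Finset (Finset ι)} (hF : Down F) {v : Finset ι} (hv : v ∈ F)
    (x : ι) : v.erase x ∈ F := hF.2 v hv _ (Finset.erase_subset x v)

theorem IFam.sub {F' : Finset (Finset ι)} (h : IFam M A F) (hF : Down F') (hF' : F' ⊆ F) :
    IFam M A F' :=
  ⟨hF, fun t ht => h.mem t (hF' ht), fun t ht => h.mono t (hF' ht)⟩

/-- Induction on the faces outside a given family. -/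
theorem down_induction_from {p : Finset (Finset ι) → Prop} {F₀ : Finset (Finset ι)}
    (hF₀ : Down F₀) (h0 : p F₀)
    (hstep : ∀ F w, Down F → F₀ ⊆ F → w ∉ F → (∀ r, r ⊂ w → r ∈ F) → p F → p (insert w F)) :
    ∀ F, Down F → F₀ ⊆ F → p F := by
  intro F
  induction F using Finset.strongInduction with
  | H F ih =>
    intro hF hsub
    by_cases h1 : F = F₀
    · rw [h1]
      exact h0
    have hne : (F \ F₀).Nonempty := by
      rw [Finset.sdiff_nonempty]
      exact fun h => h1 (Finset.Subset.antisymm h hsub)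
    obtain ⟨w, hw', hmax⟩ := Finset.exists_max_image (F \ F₀) Finset.card hne
    obtain ⟨hw, hwF₀⟩ := Finset.mem_sdiff.1 hw'
    have hw0 : w ≠ ∅ := by
      rintro rfl
      exact hwF₀ hF₀.1
    have hd : Down (F.erase w) := by
      refine ⟨Finset.mem_erase.2 ⟨hw0.symm, hF.1⟩, fun v hv r hr => ?_⟩
      rw [Finset.mem_erase] at hv ⊢
      refine ⟨?_, hF.2 v hv.2 r hr⟩
      rintro rfl
      by_cases hvF₀ : v ∈ F₀
      · exact hwF₀ (hF₀.2 v hvF₀ _ hr)
      · exact hv.1 (Finset.eq_of_subset_of_card_le hr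
          (hmax v (Finset.mem_sdiff.2 ⟨hv.2, hvF₀⟩))).symm
    have hsub' : F₀ ⊆ F.erase w := fun v hv => Finset.mem_erase.2 ⟨by
      rintro rfl
      exact hwF₀ hv, hsub hv⟩
    have h2 := hstep (F.erase w) w hd hsub' (Finset.notMem_erase w F) (fun r hr =>
      Finset.mem_erase.2 ⟨hr.ne, hF.2 w hw r hr.1⟩) (ih _ (Finset.erase_ssubset hw) hd hsub')
    rwa [Finset.insert_erase hw] at h2

namespace IRef

theorem mono {F' : Finset (Finset ι)} (h : IRef M A F') (hF : F ⊆ F') : IRef M A F := by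
  intro x E hE hEc
  obtain ⟨g, hg, h1⟩ := h x E (hE.trans (iun_mono hF)) hEc
  exact ⟨g, hg, fun v hv => h1 v (hF hv)⟩

theorem congr (h : IRef M A F) (hF : Down F) (hA : ∀ v ∈ F, A v = A' v) : IRef M A' F := by
  intro x E hE hEc
  rw [← iun_congr hA] at hE
  obtain ⟨g, hg, h1⟩ := h x E hE hEc
  refine ⟨g, hg, fun v hv e he hev => ?_⟩
  rw [← hA v hv] at hev
  rw [← hA _ (down_sdiff_erase hF hv x)]
  exact h1 v hv e he hev

/-- Reflection in several directions. -/
theorem many (hF : Down F) (h : IRef M A F) (T : Finset ι) :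
    ∀ E ⊆ iun A F, #E < M.χ → ∃ g ∈ M.G, ∀ v ∈ F, ∀ e ∈ E, e ∈ A v →
      g e ∈ A (v \ T) ∧ (Disjoint v T → g e = e) := by
  induction T using Finset.induction_on with
  | empty =>
    intro E hE hEc
    exact ⟨1, M.G.one_mem, fun v hv e he hev => ⟨by rwa [Finset.sdiff_empty], fun _ => rfl⟩⟩
  | insert y T hy ih =>
    intro E hE hEc
    obtain ⟨g, hg, h1⟩ := ih E hE hEc
    obtain ⟨k, hk, h2⟩ := h y (g '' E) (by
      rintro _ ⟨e, he, rfl⟩
      obtain ⟨v, hv, hev⟩ := hE he
      exact ⟨v \ T, hF.2 v hv _ Finset.sdiff_subset, (h1 v hv e he hev).1⟩) (small_image g hEc)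
    refine ⟨k * g, M.G.mul_mem hk hg, fun v hv e he hev => ?_⟩
    have h3 := h1 v hv e he hev
    have h4 := h2 (v \ T) (hF.2 v hv _ Finset.sdiff_subset) (g e) (mem_image_of_mem g he) h3.1
    constructor
    · have h5 : (v \ T).erase y = v \ insert y T := by
        ext z
        simp only [Finset.mem_erase, Finset.mem_sdiff, Finset.mem_insert, not_or]
        tauto
      rw [← h5]
      exact h4.1
    · intro hd
      rw [Finset.disjoint_insert_right] at hd
      rw [Equiv.Perm.mul_apply, h4.2 fun h6 => hd.1 (Finset.mem_sdiff.1 h6).1, h3.2 hd.2]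

/-- Reflection towards a set of directions. -/
theorem toward (hF : Down F) (h : IRef M A F) (w : Finset ι) {E : Set C} (hE : E ⊆ iun A F)
    (hEc : #E < M.χ) : ∃ g ∈ M.G, ∀ v ∈ F, ∀ e ∈ E, e ∈ A v →
      g e ∈ A (v ∩ w) ∧ (v ⊆ w → g e = e) := by
  obtain ⟨g, hg, h1⟩ := h.many hF (F.biUnion id \ w) E hE hEc
  refine ⟨g, hg, fun v hv e he hev => ?_⟩
  have h2 := h1 v hv e he hev
  have h3 : v \ (F.biUnion id \ w) = v ∩ w := by
    ext z
    rw [Finset.mem_sdiff, Finset.mem_sdiff, Finset.mem_inter, not_and, not_not]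
    constructor
    · rintro ⟨h4, h5⟩
      exact ⟨h4, h5 (Finset.mem_biUnion.2 ⟨v, hv, h4⟩)⟩
    · rintro ⟨h4, h5⟩
      exact ⟨h4, fun _ => h5⟩
  rw [h3] at h2
  refine ⟨h2.1, fun h4 => h2.2 ?_⟩
  exact Finset.disjoint_left.2 fun z hz hz' => (Finset.mem_sdiff.1 hz').2 (h4 hz)

/-- The union of the old faces reflects into the boundary of a new face. -/
theorem tv (hF : Down F) (h : IRef M A F) {w : Finset ι} (hwF : w ∉ F)
    (hw : ∀ r, r ⊂ w → r ∈ F) : M.TV (ibd A w) (iun A F) := by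
  intro D hD hDc E hE hEc
  obtain ⟨g, hg, h1⟩ := h.toward hF w (E := D ∪ E) (union_subset
    (hD.trans (ibd_sub_iun hw)) hE) (small_union hDc hEc)
  refine ⟨g, hg, fun a ha => ?_, fun d hd => ?_⟩
  · obtain ⟨r, hr, har⟩ := hD ha
    exact (h1 r (hw r hr) a (Or.inl ha) har).2 hr.1
  · obtain ⟨v, hv, hdv⟩ := hE hd
    refine ⟨v ∩ w, ?_, (h1 v hv d (Or.inr hd) hdv).1⟩
    refine lt_of_le_of_ne Finset.inter_subset_right fun h3 => hwF (hF.2 v hv w ?_)
    rw [← h3]
    exact Finset.inter_subset_left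

/-- The union of all faces reflects into a face. -/
theorem tv_face (hF : Down F) (h : IRef M A F) (hA : IFam M A F) {w : Finset ι} (hw : w ∈ F) :
    M.TV (A w) (iun A F) := by
  intro D hD hDc E hE hEc
  obtain ⟨g, hg, h1⟩ := h.toward hF w (E := D ∪ E) (union_subset
    (fun c hc => ⟨w, hw, hD hc⟩) hE) (small_union hDc hEc)
  refine ⟨g, hg, fun a ha => (h1 w hw a (Or.inl ha) (hD ha)).2 (Finset.Subset.refl w),
    fun d hd => ?_⟩
  obtain ⟨v, hv, hdv⟩ := hE hd
  exact hA.mono w hw _ Finset.inter_subset_right (h1 v hv d (Or.inr hd) hdv).1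

/-- Intersections of faces. -/
theorem inter (hF : Down F) (h : IRef M A F) (hA : IFam M A F) {v w : Finset ι} (hv : v ∈ F)
    (hw : w ∈ F) : A v ∩ A w = A (v ∩ w) := by
  apply Subset.antisymm
  · rintro e ⟨h1, h2⟩
    obtain ⟨g, hg, h3⟩ := h.toward hF w (E := {e}) (singleton_subset_iff.2 ⟨v, hv, h1⟩)
      (small_finite (finite_singleton e))
    have h4 := (h3 v hv e rfl h1).1
    rwa [(h3 w hw e rfl h2).2 (Finset.Subset.refl w)] at h4
  · exact subset_inter (hA.mono v hv _ Finset.inter_subset_left)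
      (hA.mono w hw _ Finset.inter_subset_right)

/-- Independence of faces over their intersection. -/
theorem ind (hF : Down F) (h : IRef M A F) (hA : IFam M A F) {v w : Finset ι} (hv : v ∈ F)
    (hw : w ∈ F) : M.Ind (A (v ∩ w)) (A v) (A w) := by
  intro D hD hDc E hE hEc
  have hvw : A (v ∩ w) ⊆ A v := hA.mono v hv _ Finset.inter_subset_left
  have hDv : D ⊆ A v := fun c hc => (hD hc).elim (fun h => hvw h) id
  obtain ⟨g, hg, h1⟩ := h.toward hF v (E := D ∪ E) (union_subset
    (fun c hc => ⟨v, hv, hDv hc⟩) fun c hc => ⟨w, hw, hE hc⟩) (small_union hDc hEc)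
  refine ⟨g, hg, fun a ha => (h1 v hv a (Or.inl ha) (hDv ha)).2 (Finset.Subset.refl v),
    fun b hb => ?_⟩
  rw [Finset.inter_comm]
  exact (h1 w hw b (Or.inr hb) (hE hb)).1

/-- The same when the union of the two faces is not used. -/
theorem ind_iun (hF : Down F) (h : IRef M A F) (hA : IFam M A F) {v : Finset ι} (hv : v ∈ F) :
    M.Ind (A v) ∅ (iun A F) := by
  intro D hD hDc E hE hEc
  have hDv : D ⊆ A v := fun c hc => (hD hc).elim id fun h => absurd h (notMem_empty c)
  exact h.tv_face hF hA hv D hDv hDc E hE hEc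

end IRef

namespace Steps

theorem sub_fam (h : Steps M A F₀ F) {F' : Finset (Finset ι)} (hF' : Down F') (h0 : F₀ ⊆ F')
    (h1 : F' ⊆ F) : Steps M A F₀ F' := by
  refine ⟨h.fam.sub hF' h1, h.down, h0, fun w hw hw0 => ?_⟩
  rcases h.step w (h1 hw) hw0 with h2 | ⟨y, h2, h3⟩
  · exact Or.inl h2
  · exact Or.inr ⟨y, h2, h3.mono Subset.rfl (iun_mono (Finset.filter_subset_filter _ h1))⟩

/-- Lifting of isolation from the boundary of a new face to all the old faces. -/
theorem lift (hF : Down F) (hR : IRef M A F) {w : Finset ι} (hwF : w ∉ F)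
    (hw : ∀ r, r ⊂ w → r ∈ F) (hat : M.Atomic (A w) (ibd A w)) {E : Set C} (hE : E ⊆ A w)
    (hEc : #E < M.χ) : ∃ B ⊆ ibd A w, #B < M.χ ∧ M.Isol B (iun A F) E := by
  obtain ⟨B, hB, hBc, hiso⟩ := hat.iso E hE hEc
  exact ⟨B, hB, hBc, hiso.lift (hR.tv hF hwF hw) hB hBc⟩

/-- Reflection when the faces are added one by one. -/
theorem ref (hM : M.Calc) (h : Steps M A F₀ F) (h0 : IRef M A F₀) : IRef M A F := by
  have key : ∀ F', Down F' → F₀ ⊆ F' → F' ⊆ F → IRef M A F' := by
    refine down_induction_from (p := fun F' => F' ⊆ F → IRef M A F') h.down (fun _ => h0) ?_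
    intro F' w hF hF₀ hwF hw ih hsub
    have hFs : F' ⊆ F := (Finset.subset_insert w F').trans hsub
    have hwF' : w ∈ F := hsub (Finset.mem_insert_self w F')
    have hR : IRef M A F' := ih hFs
    intro x E₀ hE₀ hE₀c
    have hEw : #(E₀ ∩ A w : Set C) < M.χ := small_inter_left _ hE₀c
    rcases h.step w hwF' (fun h1 => hwF (hF₀ h1)) with hat | ⟨y, rfl, hind⟩
    · -- an atomic face
      obtain ⟨B, hB, hBc, hiso⟩ := lift hF hR hwF hw hat (E := E₀ ∩ A w) inter_subset_right hEw
      have hbd : ibd A w ⊆ iun A F' := ibd_sub_iun hw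
      have hD : (E₀ ∩ iun A F') ∪ B ⊆ iun A F' := union_subset inter_subset_right (hB.trans hbd)
      have hDc : #((E₀ ∩ iun A F') ∪ B : Set C) < M.χ :=
        small_union (small_inter_left _ hE₀c) hBc
      obtain ⟨g, hg, h1⟩ := hR x _ hD hDc
      by_cases hxw : x ∈ w
      · have hwx : w.erase x ∈ F' := hw _ (Finset.erase_ssubset hxw)
        have hgB : ∀ b ∈ B, g b ∈ A (w.erase x) := by
          intro b hb
          obtain ⟨r, hr, hbr⟩ := hB hb
          exact h.fam.mono _ (hFs hwx) (r.erase x) (Finset.erase_subset_erase x hr.1)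
            (h1 r (hw r hr) b (Or.inr hb) hbr).1
        obtain ⟨k, hk, h2, h3⟩ := M.sat (h.fam.mem _ (hFs hwx))
          (A := g '' B) (B := g '' (E₀ ∩ A w)) (by
            rintro _ ⟨b, hb, rfl⟩
            exact hgB b hb) (small_image g hBc) (small_image g hEw)
        obtain ⟨l, hl, h4, h5⟩ := hiso (g⁻¹ * k * g) (M.G.mul_mem (M.G.mul_mem
          (M.G.inv_mem hg) hk) hg) (fun b hb => by
            change g⁻¹ (k (g b)) = b
            rw [h2 _ (mem_image_of_mem g hb), inv_ap]) _ hD hDc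
        refine ⟨g * l, M.G.mul_mem hg hl, fun v hv e he hev => ?_⟩
        rcases Finset.mem_insert.1 hv with rfl | hv
        · refine ⟨?_, fun h6 => absurd hxw h6⟩
          rw [Equiv.Perm.mul_apply, h5 e ⟨he, hev⟩]
          change g (g⁻¹ (k (g e))) ∈ _
          rw [ap_inv]
          exact h3 _ (mem_image_of_mem g ⟨he, hev⟩)
        · have h6 : e ∈ (E₀ ∩ iun A F') ∪ B := Or.inl ⟨he, v, hv, hev⟩
          rw [Equiv.Perm.mul_apply, h4 e h6]
          exact h1 v hv e h6 hev
      · have hgB : ∀ b ∈ B, g b = b := by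
          intro b hb
          obtain ⟨r, hr, hbr⟩ := hB hb
          exact (h1 r (hw r hr) b (Or.inr hb) hbr).2 fun h2 => hxw (hr.1 h2)
        obtain ⟨l, hl, h4, h5⟩ := hiso g⁻¹ (M.G.inv_mem hg)
          (fun b hb => fix_inv (hgB b hb)) _ hD hDc
        refine ⟨g * l, M.G.mul_mem hg hl, fun v hv e he hev => ?_⟩
        rcases Finset.mem_insert.1 hv with rfl | hv
        · rw [Equiv.Perm.mul_apply, h5 e ⟨he, hev⟩, ap_inv, Finset.erase_eq_of_notMem hxw]
          exact ⟨hev, fun _ => rfl⟩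
        · have h6 : e ∈ (E₀ ∩ iun A F') ∪ B := Or.inl ⟨he, v, hv, hev⟩
          rw [Equiv.Perm.mul_apply, h4 e h6]
          exact h1 v hv e h6 hev
    · -- a one-dimensional face
      have hyv : ∀ v ∈ F', y ∉ v := fun v hv h4 =>
        hwF (hF.2 v hv {y} (Finset.singleton_subset_iff.2 h4))
      have hun : iun A F' ⊆ iun A (F.filter fun v => y ∉ v) := by
        rintro c ⟨v, hv, hc⟩
        exact ⟨v, Finset.mem_filter.2 ⟨hFs hv, hyv v hv⟩, hc⟩
      have hind' : M.Ind (A ∅) (A {y}) (iun A F') := hind.mono Subset.rfl hun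
      have hS : A ∅ ∈ M.S := h.fam.mem ∅ (hFs hF.1)
      have h0un : A ∅ ⊆ iun A F' := fun c hc => ⟨∅, hF.1, hc⟩
      rcases eq_or_ne x y with rfl | hxy
      · obtain ⟨g, hg, h1, h2⟩ := hM.sym hS hind' (E₀ ∩ iun A F')
          (fun e he => Or.inr he.2) (small_inter_left _ hE₀c) (E₀ ∩ A {x})
          (fun e he => he.2) hEw
        refine ⟨g, hg, fun v hv e he hev => ?_⟩
        rcases Finset.mem_insert.1 hv with rfl | hv
        · have h3 : ({x} : Finset ι).erase x = ∅ := by
            ext z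
            simp
          rw [h3]
          exact ⟨h2 e ⟨he, hev⟩, fun h4 => absurd (Finset.mem_singleton_self x) h4⟩
        · rw [h1 e ⟨he, v, hv, hev⟩, Finset.erase_eq_of_notMem (hyv v hv)]
          exact ⟨hev, fun _ => rfl⟩
      · obtain ⟨p, hpP, hpc, hp⟩ := hM.based hS hEw
        obtain ⟨g, hg, h1⟩ := hR x ((E₀ ∩ iun A F') ∪ p) (union_subset inter_subset_right
          (hpP.trans h0un)) (small_union (small_inter_left _ hE₀c) hpc)
        have hgp : ∀ c ∈ p, g c = c := fun c hc =>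
          (h1 ∅ hF.1 c (Or.inr hc) (hpP hc)).2 (Finset.notMem_empty x)
        obtain ⟨k, hk, h2, h3, h4⟩ := hp g hg hgp ((E₀ ∩ iun A F') ∪ p)
          (small_union (small_inter_left _ hE₀c) hpc) (hind'.mono inter_subset_right
            (union_subset inter_subset_right (hpP.trans h0un)))
          (hind'.mono inter_subset_right (by
            rintro _ ⟨c, hc | hc, rfl⟩
            · obtain ⟨v, hv, hcv⟩ := hc.2
              exact ⟨v.erase x, hF.2 v hv _ (Finset.erase_subset x v),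
                (h1 v hv c (Or.inl hc) hcv).1⟩
            · rw [hgp c hc]
              exact h0un (hpP hc)))
        refine ⟨k, hk, fun v hv e he hev => ?_⟩
        rcases Finset.mem_insert.1 hv with rfl | hv
        · have h5 : x ∉ ({y} : Finset ι) := by
            rw [Finset.mem_singleton]
            exact hxy
          rw [h3 e ⟨he, hev⟩, Finset.erase_eq_of_notMem h5]
          exact ⟨hev, fun _ => rfl⟩
        · have h5 : e ∈ (E₀ ∩ iun A F') ∪ p := Or.inl ⟨he, v, hv, hev⟩
          rw [h4 e h5]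
          exact h1 v hv e h5 hev
  exact key F h.fam.down h.sub Finset.Subset.rfl

/-- Coherent isomorphisms of the faces are locally elementary. -/
theorem le_iun (hM : M.Calc) (h : Steps M A F₀ F) (h0 : IRef M A F₀) (f : C → C)
    (hf0 : M.LE f (iun A F₀))
    (hf : ∀ v ∈ F, ∃ g ∈ M.G, (∀ a ∈ A v, g a = f a) ∧ g '' A v = A' v)
    (hA' : ∀ y, {y} ∈ F → {y} ∉ F₀ → ¬ M.Atomic (A {y}) (ibd A {y}) →
      M.Ind (A' ∅) (A' {y}) (iun A' (F.filter fun v => y ∉ v))) : M.LE f (iun A F) := by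
  have key : ∀ F', Down F' → F₀ ⊆ F' → F' ⊆ F → M.LE f (iun A F') := by
    refine down_induction_from (p := fun F' => F' ⊆ F → M.LE f (iun A F')) h.down
      (fun _ => hf0) ?_
    intro F' w hF hF₀ hwF hw ih hsub
    have hFs : F' ⊆ F := (Finset.subset_insert w F').trans hsub
    have hwF' : w ∈ F := hsub (Finset.mem_insert_self w F')
    have hLE : M.LE f (iun A F') := ih hFs
    have hR : IRef M A F' := (h.sub_fam hF hF₀ hFs).ref hM h0
    obtain ⟨gw, hgw, hw1, hw2⟩ := hf w hwF'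
    intro E₀ hE₀ hE₀c
    have hEw : #(E₀ ∩ A w : Set C) < M.χ := small_inter_left _ hE₀c
    -- it is enough to find an element of the group with the right values on two pieces
    suffices hsuf : ∃ k ∈ M.G, (∀ a ∈ E₀ ∩ iun A F', k a = f a) ∧ ∀ a ∈ E₀ ∩ A w, k a = f a by
      obtain ⟨k, hk, h1, h2⟩ := hsuf
      refine ⟨k, hk, fun a ha => ?_⟩
      have h3 := hE₀ ha
      rw [iun_insert] at h3
      rcases h3 with h3 | h3
      · exact h2 a ⟨ha, h3⟩
      · exact h1 a ⟨ha, h3⟩
    by_cases hat : M.Atomic (A w) (ibd A w)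
    · obtain ⟨B, hB, hBc, hiso⟩ := lift hF hR hwF hw hat (E := E₀ ∩ A w) inter_subset_right hEw
      have hbd : ibd A w ⊆ iun A F' := ibd_sub_iun hw
      have hD : (E₀ ∩ iun A F') ∪ B ⊆ iun A F' := union_subset inter_subset_right (hB.trans hbd)
      have hDc : #((E₀ ∩ iun A F') ∪ B : Set C) < M.χ :=
        small_union (small_inter_left _ hE₀c) hBc
      obtain ⟨g, hg, h1⟩ := hLE _ hD hDc
      obtain ⟨l, hl, h4, h5⟩ := hiso (g⁻¹ * gw) (M.G.mul_mem (M.G.inv_mem hg) hgw)
        (fun b hb => by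
          have h6 : b ∈ A w := by
            obtain ⟨r, hr, hbr⟩ := hB hb
            exact h.fam.mono w hwF' r hr.1 hbr
          rw [Equiv.Perm.mul_apply, hw1 b h6, ← h1 b (Or.inr hb), inv_ap]) _ hD hDc
      refine ⟨g * l, M.G.mul_mem hg hl, fun a ha => ?_, fun a ha => ?_⟩
      · rw [Equiv.Perm.mul_apply, h4 a (Or.inl ha), h1 a (Or.inl ha)]
      · rw [Equiv.Perm.mul_apply, h5 a ha, Equiv.Perm.mul_apply, ap_inv, hw1 a ha.2]
    · rcases h.step w hwF' (fun h1 => hwF (hF₀ h1)) with hat' | ⟨y, rfl, hind⟩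
      · exact absurd hat' hat
      have hyv : ∀ v ∈ F', y ∉ v := fun v hv h4 =>
        hwF (hF.2 v hv {y} (Finset.singleton_subset_iff.2 h4))
      have hun : iun A F' ⊆ iun A (F.filter fun v => y ∉ v) := by
        rintro c ⟨v, hv, hc⟩
        exact ⟨v, Finset.mem_filter.2 ⟨hFs hv, hyv v hv⟩, hc⟩
      have hind0 : M.Ind (A ∅) (A {y}) (iun A F') := hind.mono Subset.rfl hun
      have hS : A ∅ ∈ M.S := h.fam.mem ∅ (hFs hF.1)
      have h0un : A ∅ ⊆ iun A F' := fun c hc => ⟨∅, hF.1, hc⟩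
      have hPy : A ∅ ⊆ A {y} := h.fam.mono {y} hwF' ∅ (Finset.empty_subset _)
      obtain ⟨p, hpP, hpc, hp⟩ := hM.based hS hEw
      obtain ⟨g, hg, h1⟩ := hLE ((E₀ ∩ iun A F') ∪ p) (union_subset inter_subset_right
          (hpP.trans h0un)) (small_union (small_inter_left _ hE₀c) hpc)
      obtain ⟨g0, hg0, h01, h02⟩ := hf ∅ (hFs hF.1)
      have hkG : gw⁻¹ * g ∈ M.G := M.G.mul_mem (M.G.inv_mem hgw) hg
      have hkp : ∀ c ∈ p, (gw⁻¹ * g) c = c := fun c hc => by
        rw [Equiv.Perm.mul_apply, h1 c (Or.inr hc), ← hw1 c (hPy (hpP hc)), inv_ap]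
      -- the independence of the image
      have hind' := (hA' y hwF' (fun h1 => hwF (hF₀ h1)) hat).smul (M.G.inv_mem hgw)
      have hcomp : ((gw⁻¹ : Equiv.Perm C) ∘ gw) = id := by
        funext a
        exact inv_ap gw a
      have e1 : (gw⁻¹ : Equiv.Perm C) '' A' {y} = A {y} := by
        rw [← hw2, ← image_comp, hcomp, image_id]
      have e2 : (gw⁻¹ : Equiv.Perm C) '' A' ∅ = A ∅ := by
        have : A' ∅ = gw '' A ∅ := by
          rw [← h02]
          refine image_congr fun a ha => ?_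
          rw [h01 a ha, hw1 a (hPy ha)]
        rw [this, ← image_comp, hcomp, image_id]
      rw [e1, e2] at hind'
      obtain ⟨k, hk, h2, h3, h4⟩ := hp (gw⁻¹ * g) hkG hkp ((E₀ ∩ iun A F') ∪ p)
          (small_union (small_inter_left _ hE₀c) hpc) (hind0.mono inter_subset_right
            (union_subset inter_subset_right (hpP.trans h0un)))
          (hind'.mono inter_subset_right (by
            rintro _ ⟨c, hc, rfl⟩
            refine ⟨g c, ?_, rfl⟩
            rw [h1 c hc]
            have hcF : c ∈ iun A F' := by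
              rcases hc with hc | hc
              · exact hc.2
              · exact h0un (hpP hc)
            obtain ⟨v, hv, hcv⟩ := hcF
            obtain ⟨gv, hgv, hv1, hv2⟩ := hf v (hFs hv)
            rw [← hv1 c hcv]
            refine ⟨v, Finset.mem_filter.2 ⟨hFs hv, hyv v hv⟩, ?_⟩
            rw [← hv2]
            exact mem_image_of_mem gv hcv))
      refine ⟨gw * k, M.G.mul_mem hgw hk, fun a ha => ?_, fun a ha => ?_⟩
      · rw [Equiv.Perm.mul_apply, h4 a (Or.inl ha), Equiv.Perm.mul_apply, ap_inv,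
          h1 a (Or.inl ha)]
      · rw [Equiv.Perm.mul_apply, h3 a ha, hw1 a ha.2]
  exact key F h.fam.down h.sub Finset.Subset.rfl

end Steps

end Vale.Agent.P307.R2.H533
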