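import Vale.Agent.P307.R2.H533.LimChart
import Vale.Agent.P307.R2.H672.LimC

/-!
Continuation of convergent sequences, in a chart with long blocks.
-/

set_option linter.unusedSectionVars false

universe u v

open FirstOrder Cardinal Set

namespace Vale.Agent.P307.R2.H533

open Vale.Agent.P307 Vale.Agent.P307.H304 Vale.Agent.P307.R2.H287 Vale.Agent.P307.R2.H1
  Vale.Agent.P307.R2.H806 Vale.Agent.P307.R2.H971 Vale.Agent.P307.R2.H804
  Language.Structure Language.Substructure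
open Vale.Agent.P307.R2.H541 Vale.Agent.P307.R2.H541.PG
  Vale.Agent.P307.R2.H650 Vale.Agent.P307.R2.H83 Vale.Agent.P307.R2.H427
open Vale.Agent.P307.R2.H68 (part nice_blk mem_part)

variable {ι : Type v} {L : Language.{u, u}} {K : AEC L} {ℓ θ σ ν : Cardinal.{u}}
  {κf α : Cardinal.{u} → Cardinal.{u}} {C : Type u} [L.Structure C]

theorem isUnifW_of {t : Tpl K ℓ} {I : Type u} [LinearOrder I] {E : EM t I} {X κ : Type u}
    [LinearOrder X] {W : κ → Set I} {a : X → κ → E.N} (h : H476.IsUnifW E W a) :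
    IsUnifW E W a := by
  obtain ⟨s, w, h1, h2, h3⟩ := h
  exact ⟨s, w, h1, h3, h2⟩

theorem dir_succTy {μ : Cardinal.{u}} (hμ : ℵ₀ ≤ μ) (hν : ν ≤ μ) : Dir ν (SuccTy μ) := by
  intro s hs
  obtain ⟨z, hz⟩ := exists_gt_of_small hμ s (hs.trans hν)
  exact ⟨z, fun x hx => hz x hx⟩

variable (h₀ : BasePt K ℓ κf α θ) (hK : K.IsLS ℓ)
  (hunb : ∀ ν, ν < κf ν ∧ K.CategoricalIn (κf ν)) (hst : Stab K ℓ α (H287.thr κf))
  (hCm : K.mem C) (hs : Sat K θ C) (hCc : #C = Order.succ θ)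

include h₀ hK hunb hst hCm hs hCc in
/-- **Continuation of convergent sequences**, in a chart with long blocks. -/
theorem lim_chart (hℓν : ℓ ≤ ν) (hνθ : ν < θ) (hthr : H287.thr κf (opB κf ν) ≤ θ)
    (hσθ : σ ≤ θ) (hop : Order.succ (opB κf ν) ≤ σ)
    (c : Chart ι K ℓ θ σ C) (b : Finset ι → SuccTy θ) {F : Finset (Finset ι)}
    {A P : Finset ι → Set C} {N : Set C} (hAP : ∀ v ∈ F, A v ⊆ P v) (f : C → C)
    (hf : (pg h₀ hK hunb hst hCm hs hCc).LEL ν f (iun P F))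
    (himg : ∀ v ∈ F, f '' P v = c.St b v)
    (hk : Blk.KeyC (pg h₀ hK hunb hst hCm hs hCc) A P F N) {D B' : Set C}
    (hD : D ⊆ iun A F) (hB : B' ⊆ iun A F) (hBN : B' ⊆ N) (hBc : #B' < θ) (hBσ : #B' ≤ σ)
    {κ : Type u} (hκ : #κ ≤ ν) (v : κ → Finset ι) (hv : ∀ i, v i ∈ F) (x₀ : κ → C)
    (hJ : ∀ q ⊆ D, #q ≤ limB κf ν → ∃ g ∈ autG L C, (∀ x ∈ q, g x = x) ∧
      ∀ i, g (x₀ i) ∈ A (v i) ∩ D) :
    ∃ (b' : SuccTy (opB κf ν) → κ → C) (x' : κ → C), (∀ ξ i, b' ξ i ∈ A (v i) ∩ D) ∧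
      (∀ i, x' i ∈ A (v i)) ∧ Conv L ν b' x₀ D ∧ Conv L ν b' x' B' := by
  have hν : ℵ₀ ≤ ν := hK.1.trans hℓν
  have hop' : opB κf ν ≤ σ := (Order.le_succ _).trans hop
  have hνop : ν ≤ opB κf ν := le_opB hunb ν
  have hE : H287.thr κf ν ≤ #c.E.N := by
    rw [mk_congr c.e.toEquiv, hCc]
    exact (((thr_le_opB κf ν).trans (le_thr hunb _)).trans hthr).trans (Order.le_succ θ)
  exact H672.lim_core h₀ hK hunb hst hCm hs hCc hℓν hνθ hthr c b hAP f hf himg hk hD hB hBN hBc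
    hκ v hv x₀ hJ fun a ha B'' hB'' =>
      chart_exists_limit hK hunb c hσθ hℓν (hνop.trans hop') hE
        (dir_succTy (hν.trans hνop) hνop) ((mk_succTy _).trans_le hop) b v (isUnifW_of ha) hκ B'' (hB''.trans hBσ)

end Vale.Agent.P307.R2.H533
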