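import Vale.Agent.P307.R2.H533.LimIn
import Vale.Agent.P307.R2.H427.Chart2

/-!
Limits of uniform sequences inside the faces of the standard families.
-/

set_option linter.unusedSectionVars false

universe u v

open FirstOrder Cardinal Set

namespace Vale.Agent.P307.R2.H533

open Vale.Agent.P307 Vale.Agent.P307.H304 Vale.Agent.P307.R2.H287 Vale.Agent.P307.R2.H1
  Vale.Agent.P307.R2.H806 Vale.Agent.P307.R2.H427 Language.Structure Language.Substructure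
open Vale.Agent.P307.R2.H68 (part nice_blk mem_part)

section order

variable {Ω B : Type u} [LinearOrder Ω] [LinearOrder B] {σ : Cardinal.{u}}

theorem ordConnected_part {p q : Ω} : (part (Icc p q) : Set (Ω ×ₗ B)).OrdConnected := by
  refine ⟨fun x hx y hy z hz => ?_⟩
  have h1 : (ofLex x).1 ≤ (ofLex z).1 := by
    rcases hz.1.lt_or_eq with h | h
    · rcases Prod.Lex.lt_iff.1 h with h | h
      · exact h.le
      · exact h.1.le
    · rw [h]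
  have h2 : (ofLex z).1 ≤ (ofLex y).1 := by
    rcases hz.2.lt_or_eq with h | h
    · rcases Prod.Lex.lt_iff.1 h with h | h
      · exact h.le
      · exact h.1.le
    · rw [h]
  exact ⟨(mem_part.1 hx).1.trans h1, h2.trans (mem_part.1 hy).2⟩

theorem bracket_part (hB : Nice σ B) {p q : Ω} (hpq : p ≤ q) {R : Set (Ω ×ₗ B)}
    (hR : R ⊆ part (Icc p q)) (hRc : #R ≤ σ) :
    ∃ lo ∈ (part (Icc p q) : Set (Ω ×ₗ B)), ∃ hi ∈ (part (Icc p q) : Set (Ω ×ₗ B)),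
      ∀ r ∈ R, lo ≤ r ∧ r ≤ hi := by
  obtain ⟨β, -, hβ⟩ := hB ∅ ((fun j => (ofLex j).2) '' R) (by simp) (mk_image_le.trans hRc) (by simp)
  obtain ⟨γ, hγ, -⟩ := hB ((fun j => (ofLex j).2) '' R) ∅ (mk_image_le.trans hRc) (by simp) (by simp)
  refine ⟨toLex (p, β), ⟨le_rfl, hpq⟩, toLex (q, γ), ⟨hpq, le_rfl⟩, fun r hr => ⟨?_, ?_⟩⟩
  · have h1 : p ≤ (ofLex r).1 := (hR hr).1
    refine le_of_lt (Prod.Lex.lt_iff.2 ?_)
    rcases h1.lt_or_eq with h | h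
    · exact Or.inl h
    · exact Or.inr ⟨h, hβ _ ⟨r, hr, rfl⟩⟩
  · have h1 : (ofLex r).1 ≤ q := (hR hr).2
    refine le_of_lt (Prod.Lex.lt_iff.2 ?_)
    rcases h1.lt_or_eq with h | h
    · exact Or.inl h
    · exact Or.inr ⟨h, hγ _ ⟨r, hr, rfl⟩⟩

end order

variable {ι : Type v} {L : Language.{u, u}} {K : AEC L} {ℓ θ σ : Cardinal.{u}}
  {κf : Cardinal.{u} → Cardinal.{u}} {C : Type u} [L.Structure C]

/-- The order of the indices of a chart is nice. -/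
theorem nice_reg (hσ : ℵ₀ ≤ σ) (hσθ : σ ≤ θ) (c : Chart ι K ℓ θ σ C) :
    Nice σ (Reg θ c.m ×ₗ H68.Blk σ) := by
  classical
  have hθ : ℵ₀ ≤ θ := hσ.trans hσθ
  obtain ⟨i₀, -⟩ := c.hr
  refine nice_lex (nice_blk hσ) fun s hs => ?_
  obtain ⟨z, hz⟩ := exists_gt_of_small hθ ((fun p : Reg θ c.m => (ofLex p).2) '' s)
    ((mk_image_le.trans hs).trans hσθ)
  have hm : 0 < c.m := lt_of_le_of_lt (Nat.zero_le _) i₀.2
  refine ⟨rp ⟨c.m - 1, by omega⟩ 3 z, fun x hx => ?_⟩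
  obtain ⟨i, k, y, rfl⟩ := rp_surj x
  have h1 : y < z := hz _ ⟨_, hx, rfl⟩
  have h2 : i ≤ ⟨c.m - 1, by omega⟩ := by
    rw [Fin.le_def]
    have h3 := i.2
    change (i : ℕ) ≤ c.m - 1
    omega
  have h3 : k ≤ 3 := by
    rw [Fin.le_def]
    have h4 := k.2
    change (k : ℕ) ≤ 3
    omega
  rw [rp_le]
  rcases h2.lt_or_eq with h | h
  · exact Or.inl h
  · refine Or.inr ⟨h, ?_⟩
    rcases h3.lt_or_eq with h | h
    · exact Or.inl h
    · exact Or.inr ⟨h, h1.le⟩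

theorem icc_top {m : ℕ} {i : Fin m} {a : SuccTy θ} :
    Icc (rp i 2 a) (rp i 2 a) = {p | p = rp i 2 a} := by
  rw [Icc_self]
  rfl

theorem icc_reg {m : ℕ} {i : Fin m} {z c : SuccTy θ} (hz : ∀ x, z ≤ x) :
    Icc (rp i 0 z) (rp i 0 c) = {p | ∃ x ≤ c, p = rp i 0 x} := by
  ext p
  constructor
  · rintro ⟨h1, h2⟩
    obtain ⟨j, k, x, rfl⟩ := rp_surj p
    rw [rp_le] at h1 h2
    have h3 : i = j := by
      rcases h1 with h1 | h1
      · rcases h2 with h2 | h2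
        · exact absurd (h1.trans h2) (lt_irrefl _)
        · exact absurd h2.1.symm h1.ne
      · exact h1.1
    subst h3
    have h4 : k = 0 ∧ x ≤ c := by
      rcases h2 with h2 | h2
      · exact absurd h2 (lt_irrefl _)
      · rcases h2.2 with h3 | h3
        · exact absurd h3 (Fin.not_lt_zero k)
        · exact h3
    refine ⟨x, h4.2, ?_⟩
    rw [h4.1]
  · rintro ⟨x, hx, rfl⟩
    exact ⟨rp_le.2 (Or.inr ⟨rfl, Or.inr ⟨rfl, hz x⟩⟩), rp_le.2 (Or.inr ⟨rfl, Or.inr ⟨rfl, hx⟩⟩)⟩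

/-- The index sets of the faces are finite unions of closed intervals of blocks. -/
theorem brk_Sx (hσ : ℵ₀ ≤ σ) (c : Chart ι K ℓ θ σ C) (b : Finset ι → SuccTy θ) (w : Finset ι) :
    Brk σ (part (c.Sx b w) : Set (Reg θ c.m ×ₗ H68.Blk σ)) := by
  classical
  obtain ⟨z, hz⟩ : ∃ z : SuccTy θ, ∀ x, z ≤ x := by
    refine ⟨WellFounded.min (wellFounded_lt (α := SuccTy θ)) univ ⟨c.a₀, trivial⟩, fun x => ?_⟩
    exact not_lt.1 (wellFounded_lt.not_lt_min _ (mem_univ x))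
  let lo : Fin c.m ⊕ {i : Fin c.m // c.r i ⊆ w} → Reg θ c.m :=
    Sum.elim (fun i => rp i 2 c.a₀) (fun i => rp i.1 0 z)
  let hi : Fin c.m ⊕ {i : Fin c.m // c.r i ⊆ w} → Reg θ c.m :=
    Sum.elim (fun i => rp i 2 c.a₀) (fun i => rp i.1 0 (c.bd b (c.r i.1)))
  have hlh : ∀ k, lo k ≤ hi k := by
    rintro (i | i)
    · exact le_rfl
    · exact rp_le.2 (Or.inr ⟨rfl, Or.inr ⟨rfl, hz _⟩⟩)
  refine ⟨Fin c.m ⊕ {i : Fin c.m // c.r i ⊆ w}, inferInstance, fun k => part (Icc (lo k) (hi k)), ?_,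
    fun k => ⟨ordConnected_part, fun R hR hRc _ => bracket_part (nice_blk hσ) (hlh k) hR hRc⟩⟩
  ext j
  rw [mem_iUnion]
  constructor
  · rintro (⟨i, hi'⟩ | ⟨i, h1, h2⟩)
    · refine ⟨Sum.inl i, ?_⟩
      change (ofLex j).1 ∈ Icc (rp i 2 c.a₀) (rp i 2 c.a₀)
      rw [icc_top]
      exact hi'
    · refine ⟨Sum.inr ⟨i, h1⟩, ?_⟩
      change (ofLex j).1 ∈ Icc (rp i 0 z) (rp i 0 (c.bd b (c.r i)))
      rw [icc_reg hz]
      exact h2
  · rintro ⟨i | i, hj⟩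
    · change (ofLex j).1 ∈ Icc (rp i 2 c.a₀) (rp i 2 c.a₀) at hj
      rw [icc_top] at hj
      exact Or.inl ⟨i, hj⟩
    · change (ofLex j).1 ∈ Icc (rp i.1 0 z) (rp i.1 0 (c.bd b (c.r i.1))) at hj
      rw [icc_reg hz] at hj
      exact Or.inr ⟨i.1, i.2, hj⟩

theorem nonempty_Sx (c : Chart ι K ℓ θ σ C) (b : Finset ι → SuccTy θ) (w : Finset ι) :
    (part (c.Sx b w) : Set (Reg θ c.m ×ₗ H68.Blk σ)).Nonempty := by
  obtain ⟨i₀, -⟩ := c.hr
  exact ⟨toLex (rp i₀ 2 c.a₀, Classical.arbitrary (H68.Blk σ)), Chart.top_mem i₀⟩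

/-- **Limits inside the faces.** A uniform sequence of tuples in the faces of a standard family
with the indices in the index sets of the faces has over every small set a limit in the faces. -/
theorem chart_exists_limit (hK : K.IsLS ℓ) (hunb : ∀ ν, ν < κf ν ∧ K.CategoricalIn (κf ν))
    (c : Chart ι K ℓ θ σ C) (hσθ : σ ≤ θ) {ν : Cardinal.{u}} (hν : ℓ ≤ ν) (hνσ : ν ≤ σ)
    (hE : thr κf ν ≤ #c.E.N) {X κ : Type u} [LinearOrder X] (hX : Dir ν X) (hXc : #X ≤ σ)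
    (b : Finset ι → SuccTy θ) (w : κ → Finset ι) {a : X → κ → c.E.N}
    (h : IsUnifW c.E (fun i => (part (c.Sx b (w i)) : Set (Reg θ c.m ×ₗ H68.Blk σ))) a)
    (hκ : #κ ≤ ν) (B : Set c.E.N) (hB : #B ≤ σ) :
    ∃ c' : κ → c.E.N, (∀ i, c' i ∈ hull c.E (part (c.Sx b (w i)))) ∧
      ∀ (ζ : Type u) (y : ζ → c.E.N), #ζ ≤ ν → (∀ z, y z ∈ B) →
        ∃ x₀, ∀ x, x₀ ≤ x → EqS L ν (Sum.elim y c') (Sum.elim y (a x)) := by
  have hσ : ℵ₀ ≤ σ := (hK.1.trans hν).trans hνσ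
  exact h.exists_limit hK hunb hν hνσ (nice_reg hσ hσθ c) hE hX hXc hκ
    (fun i => brk_Sx hσ c b (w i)) B hB

end Vale.Agent.P307.R2.H533
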