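import Vale.Agent.P307.R2.H533.UnifW
import Vale.Agent.P307.R2.H287.Ord

/-!
Limits of uniform sequences with the indices of every component in a given set.
-/

set_option linter.unusedSectionVars false

universe u

open FirstOrder Cardinal Set

namespace Vale.Agent.P307.R2.H533

open Vale.Agent.P307 Vale.Agent.P307.H304 Vale.Agent.P307.R2.H287 Vale.Agent.P307.R2.H1
  Vale.Agent.P307.R2.H806 Language.Structure Language.Substructure

variable {L : Language.{u, u}} {K : AEC L} {ℓ : Cardinal.{u}}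
  {κf : Cardinal.{u} → Cardinal.{u}} {t : Tpl K ℓ} {I : Type u} [LinearOrder I]

/-- Finite unions of convex sets in which every small set is contained in a closed interval. -/
def Brk (θ : Cardinal.{u}) (V : Set I) : Prop :=
  ∃ (κ : Type) (_ : Finite κ) (J : κ → Set I), V = ⋃ k, J k ∧ ∀ k, (J k).OrdConnected ∧
    ∀ R ⊆ J k, #R ≤ θ → R.Nonempty → ∃ lo ∈ J k, ∃ hi ∈ J k, ∀ r ∈ R, lo ≤ r ∧ r ≤ hi

theorem eventually_exists_of_finite {X : Type u} {U : Ultrafilter X} {κ : Type} [Finite κ]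
    {φ : κ → X → Prop} (h : ∀ x, ∃ k, φ k x) : ∃ k, ∀ᶠ x in (U : Filter X), φ k x := by
  by_contra hcon
  push Not at hcon
  have h1 : ∀ k, ∀ᶠ x in (U : Filter X), ¬ φ k x := fun k => hcon k
  obtain ⟨x, hx⟩ := (Filter.eventually_all.2 h1).exists
  obtain ⟨k, hk⟩ := h x
  exact hx k hk

variable {E : EM t I} {X ι : Type u} [LinearOrder X] {W : ι → Set I} {a : X → ι → E.N}

/-- **Limits inside.** Limits of uniform sequences over small sets in nice EM models, with the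
indices in the given sets. -/
theorem IsUnifW.exists_limit (hK : K.IsLS ℓ) (hunb : ∀ ν, ν < κf ν ∧ K.CategoricalIn (κf ν))
    {ν θ : Cardinal.{u}} (hℓ : ℓ ≤ ν) (hνθ : ν ≤ θ) (hI : Nice θ I) (hE : thr κf ν ≤ #E.N)
    (hX : Dir ν X) (hXc : #X ≤ θ) (h : IsUnifW E W a) (hι : #ι ≤ ν) (hW : ∀ i, Brk θ (W i))
    (B : Set E.N) (hB : #B ≤ θ) :
    ∃ c' : ι → E.N, (∀ i, c' i ∈ hull E (W i)) ∧ ∀ (ζ : Type u) (y : ζ → E.N), #ζ ≤ ν →
      (∀ z, y z ∈ B) → ∃ x₀, ∀ x, x₀ ≤ x → EqS L ν (Sum.elim y c') (Sum.elim y (a x)) := by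
  classical
  obtain ⟨s, w, hs, hwW, hw⟩ := h
  have hν : ℵ₀ ≤ ν := t.hν.trans hℓ
  have hθ : ℵ₀ ≤ θ := hν.trans hνθ
  have hXne : Nonempty X := ⟨(hX ∅ (by simp)).choose⟩
  have hne : Nonempty I := by
    obtain ⟨d, -⟩ := hI ∅ ∅ (by simp) (by simp) (by simp)
    exact ⟨d⟩
  choose sy qy hsq using exists_nat_term E
  let U : Ultrafilter X := Ultrafilter.of Filter.atTop
  have hU' : (U : Filter X) ≤ Filter.atTop := Ultrafilter.of_le _
  have hU : ∀ x₀, ∀ᶠ x in (U : Filter X), x₀ ≤ x := fun x₀ => hU' (Filter.eventually_ge_atTop x₀)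
  -- the brackets
  have hbr : ∀ p : ι × ULift.{u} ℕ, ∃ (J : Set I) (lo hi : I), J ⊆ W p.1 ∧ J.OrdConnected ∧
      lo ∈ J ∧ hi ∈ J ∧ ∀ᶠ x in (U : Filter X), lo ≤ w x p ∧ w x p ≤ hi := by
    intro p
    obtain ⟨κ, hκ, J, hJ, hJ'⟩ := hW p.1
    obtain ⟨k, hk⟩ := eventually_exists_of_finite (U := U) (φ := fun k x => w x p ∈ J k) (by
      intro x
      have h1 := hwW x p
      rw [hJ] at h1
      exact mem_iUnion.1 h1)
    obtain ⟨h1, h2⟩ := hJ' k
    obtain ⟨x₁, hx₁⟩ := hk.exists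
    obtain ⟨lo, hlo, hi, hhi, h3⟩ := h2 {i | i ∈ J k ∧ i ∈ range fun x => w x p}
      (fun i hi => hi.1) ((mk_le_mk_of_subset fun i hi => hi.2).trans (mk_range_le.trans hXc))
      ⟨_, hx₁, x₁, rfl⟩
    refine ⟨J k, lo, hi, ?_, h1, hlo, hhi, ?_⟩
    · rw [hJ]
      exact subset_iUnion J k
    · filter_upwards [hk] with x hx
      exact h3 _ ⟨hx, x, rfl⟩
  choose J lo hi hJ1 hJ2 hlo hhi hev using hbr
  let J' : Type u := Filter.Germ (U : Filter X) I
  let P : Type u := (B × ULift.{u} ℕ) ⊕ ((ι × ULift.{u} ℕ) ⊕ (ι × ULift.{u} ℕ))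
  let pt : P → I := Sum.elim (fun p => qy p.1 p.2) (Sum.elim lo hi)
  let V : Set (J' × I) := range fun p : P => (((pt p : I) : Filter.Germ (U : Filter X) I), pt p)
  have hV : OrdPat V := by
    rintro _ ⟨p, rfl⟩ _ ⟨q, rfl⟩
    exact Filter.Germ.const_le_iff
  have hVθ : #V ≤ θ := by
    refine mk_range_le.trans ?_
    have h1 : #(ι × ULift.{u} ℕ) ≤ θ := mk_prod_nat_le hθ (hι.trans hνθ)
    change #((B × ULift.{u} ℕ) ⊕ ((ι × ULift.{u} ℕ) ⊕ (ι × ULift.{u} ℕ))) ≤ θ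
    rw [mk_sum, mk_sum]
    simp only [lift_id]
    exact add_le_of_le hθ (mk_prod_nat_le hθ hB) (add_le_of_le hθ h1 h1)
  obtain ⟨W', h1, h2, -, h4⟩ := OrdPat.exists_extend hθ hI hV hVθ
    (range fun p : ι × ULift.{u} ℕ => ((fun x => w x p : X → I) : Filter.Germ (U : Filter X) I))
    (mk_range_le.trans (mk_prod_nat_le hθ (hι.trans hνθ)))
  choose w' hw' using fun p => h4 _ ⟨p, rfl⟩
  have hVm : ∀ p : P, ((((pt p : I) : Filter.Germ (U : Filter X) I), pt p) : J' × I) ∈ W' :=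
    fun p => h1 ⟨p, rfl⟩
  have hw'W : ∀ p, w' p ∈ W p.1 := by
    intro p
    refine hJ1 p ((hJ2 p).out (hlo p) (hhi p) ⟨?_, ?_⟩)
    · refine (h2 _ (hVm (Sum.inr (Sum.inl p))) _ (hw' p)).1 ?_
      change (((lo p : I) : Filter.Germ (U : Filter X) I) ≤
        ((fun x => w x p : X → I) : Filter.Germ (U : Filter X) I))
      exact Filter.Germ.coe_le.2 ((hev p).mono fun x hx => hx.1)
    · refine (h2 _ (hw' p) _ (hVm (Sum.inr (Sum.inr p)))).1 ?_
      change (((fun x => w x p : X → I) : Filter.Germ (U : Filter X) I) ≤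
        ((hi p : I) : Filter.Germ (U : Filter X) I))
      exact Filter.Germ.coe_le.2 ((hev p).mono fun x hx => hx.2)
  let s' : ι → (exLang L t.Λ).Term (ι × ULift.{u} ℕ) := fun i => (s i).relabel fun k => (i, k)
  have hs' : ∀ (v : ι × ULift.{u} ℕ → I) (i : ι), (s' i).realize (fun p => E.c (v p)) =
      (s i).realize fun k => E.c (v (i, k)) := by
    intro v i
    change ((s i).relabel fun k => (i, k)).realize _ = _
    rw [Language.Term.realize_relabel]
    rfl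
  refine ⟨fun i => (s' i).realize fun p => E.c (w' p), fun i => ?_, fun ζ y hζ hy => ?_⟩
  · change (s' i).realize (fun p => E.c (w' p)) ∈ hull E (W i)
    rw [hs']
    exact (mem_closure_image_iff E.c (W i) _).2
      ⟨(s i).relabel fun k => ⟨w' (i, k), hw'W (i, k)⟩, by
        rw [Language.Term.realize_relabel]
        rfl⟩
  · obtain ⟨x₀, hx₀⟩ := lim_aux hK hunb hℓ hE hE hX hι hζ hU s' hw
      (mk_prod_nat_le hν hζ) (fun q : ζ × ULift.{u} ℕ => qy (y q.1) q.2)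
      (fun q : ζ × ULift.{u} ℕ => qy (y q.1) q.2) (fun _ _ => Iff.rfl) w'
      (fun p q => (h2 _ (hw' p) _ (hVm (Sum.inl (⟨y q.1, hy q.1⟩, q.2)))).symm)
      (fun p q => (h2 _ (hVm (Sum.inl (⟨y q.1, hy q.1⟩, q.2))) _ (hw' p)).symm)
      (fun p p' => (h2 _ (hw' p) _ (hw' p')).symm) (fun z => (sy (y z)).relabel fun k => (z, k))
    refine ⟨x₀, fun x hx => ?_⟩
    have h5 := hx₀ x hx
    have h6 : (fun z => ((sy (y z)).relabel fun k => (z, k)).realize
        fun q : ζ × ULift.{u} ℕ => E.c (qy (y q.1) q.2)) = y := by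
      funext z
      rw [Language.Term.realize_relabel]
      exact hsq (y z)
    have h7 : (fun i => (s' i).realize fun p => E.c (w x p)) = a x := by
      funext i
      rw [hs']
      exact hs x i
    rw [h6, h7] at h5
    exact h5

end Vale.Agent.P307.R2.H533
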