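import Vale.Agent.P307.R2.H533.ISys

/-!
One new direction over an arbitrary independent system: the faces, their reflection, their
uniqueness, and the comparison with the prime systems.
-/

universe u v

open Set Cardinal Function

namespace Vale.Agent.P307.R2.H533

open Vale.Agent.P307.R2.H541 Vale.Agent.P307.R2.H541.PG

open scoped Classical

variable {ι : Type v} {C : Type u} {M : PG C}

variable (M) in
/-- An independent system of models with a top. -/
structure ISys (A : Finset ι → Set C) (s : Finset ι) : Prop where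
  fam : IFam M A s.powerset
  ref : IRef M A s.powerset

variable (M) in
/-- The proper faces of the extension of a system by one direction. -/
structure Ext1 (A : Finset ι → Set C) (S : Finset ι) (c : ι) : Prop where
  sys : ISys M A S
  notMem : c ∉ S
  memc : A {c} ∈ M.S
  base : A ∅ ⊆ A {c}
  ind : M.Ind (A ∅) (A {c}) (A S)
  atomic : ∀ u, u ⊂ S → u.Nonempty → M.Atomic (A (insert c u)) (ibd A (insert c u))

variable {A A' : Finset ι → Set C} {s S : Finset ι} {c : ι}

theorem down_ssubsets {α : Type*} {s : Finset α} (hs : s.Nonempty) : Down s.ssubsets := by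
  refine ⟨Finset.mem_ssubsets.2 (Finset.empty_ssubset.2 hs), fun v hv r hr => ?_⟩
  exact Finset.mem_ssubsets.2 (lt_of_le_of_lt hr (Finset.mem_ssubsets.1 hv))

theorem iun_ssubsets : iun A s.ssubsets = ibd A s := by
  ext x
  constructor
  · rintro ⟨v, hv, hx⟩
    exact ⟨v, Finset.mem_ssubsets.1 hv, hx⟩
  · rintro ⟨v, hv, hx⟩
    exact ⟨v, Finset.mem_ssubsets.2 hv, hx⟩

/-- A face of `insert c S` is a face of `S` or contains `c`. -/
theorem face_cases (hc : c ∉ S) {t : Finset ι} (ht : t ⊂ insert c S) :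
    t ⊆ S ∨ ∃ u, u ⊂ S ∧ t = insert c u := by
  by_cases hct : c ∈ t
  · right
    refine ⟨t.erase c, ?_, (Finset.insert_erase hct).symm⟩
    refine lt_of_le_of_ne ?_ ?_
    · intro z hz
      have h1 := ht.1 (Finset.mem_of_mem_erase hz)
      rw [Finset.mem_insert] at h1
      exact h1.resolve_left (Finset.ne_of_mem_erase hz)
    · intro h1
      apply ht.ne
      rw [← Finset.insert_erase hct, h1]
  · left
    intro z hz
    have h1 := ht.1 hz
    rw [Finset.mem_insert] at h1
    exact h1.resolve_left (by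
      rintro rfl
      exact hct hz)

theorem insert_ssubset_insert' {u : Finset ι} (hc : c ∉ S) (hu : u ⊂ S) :
    insert c u ⊂ insert c S := by
  refine lt_of_le_of_ne (Finset.insert_subset_insert c hu.1) fun h1 => hu.2 fun z hz => ?_
  have h2 : z ∈ insert c u := by
    rw [h1]
    exact Finset.mem_insert_of_mem hz
  rw [Finset.mem_insert] at h2
  exact h2.resolve_left (by
    rintro rfl
    exact hc hz)

theorem iun_powerset (h : IFam M A s.powerset) : iun A s.powerset = A s := by
  ext x
  constructor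
  · rintro ⟨v, hv, hx⟩
    exact h.mono s (Finset.mem_powerset_self s) v (Finset.mem_powerset.1 hv) hx
  · intro hx
    exact ⟨s, Finset.mem_powerset_self s, hx⟩

namespace ISys

theorem mem (h : ISys M A s) {t : Finset ι} (ht : t ⊆ s) : A t ∈ M.S :=
  h.fam.mem t (Finset.mem_powerset.2 ht)

theorem mono (h : ISys M A s) {t r : Finset ι} (ht : t ⊆ s) (hr : r ⊆ t) : A r ⊆ A t :=
  h.fam.mono t (Finset.mem_powerset.2 ht) r hr

theorem sub (h : ISys M A s) {t : Finset ι} (ht : t ⊆ s) : ISys M A t :=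
  ⟨h.fam.sub (down_powerset t) (Finset.powerset_mono.2 ht),
    h.ref.mono (Finset.powerset_mono.2 ht)⟩

theorem congr (h : ISys M A s) (hA : ∀ t, t ⊆ s → A t = A' t) : ISys M A' s := by
  refine ⟨⟨down_powerset s, fun t ht => ?_, fun t ht r hr => ?_⟩,
    h.ref.congr (down_powerset s) fun v hv => hA v (Finset.mem_powerset.1 hv)⟩
  · rw [← hA t (Finset.mem_powerset.1 ht)]
    exact h.fam.mem t ht
  · rw [← hA t (Finset.mem_powerset.1 ht), ← hA r (hr.trans (Finset.mem_powerset.1 ht))]
    exact h.fam.mono t ht r hr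

theorem inter (h : ISys M A s) {v w : Finset ι} (hv : v ⊆ s) (hw : w ⊆ s) :
    A v ∩ A w = A (v ∩ w) :=
  h.ref.inter (down_powerset s) h.fam (Finset.mem_powerset.2 hv) (Finset.mem_powerset.2 hw)

theorem ind (h : ISys M A s) {v w : Finset ι} (hv : v ⊆ s) (hw : w ⊆ s) :
    M.Ind (A (v ∩ w)) (A v) (A w) :=
  h.ref.ind (down_powerset s) h.fam (Finset.mem_powerset.2 hv) (Finset.mem_powerset.2 hw)

/-- Image under the group. -/
theorem smul (h : ISys M A s) {g : Equiv.Perm C} (hg : g ∈ M.G) :
    ISys M (fun t => g '' A t) s := by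
  refine ⟨⟨down_powerset s, fun t ht => M.S_inv hg (h.fam.mem t ht), fun t ht r hr =>
    image_mono (h.fam.mono t ht r hr)⟩, ?_⟩
  intro x E hE hEc
  have hE' : (g⁻¹ : Equiv.Perm C) '' E ⊆ iun A s.powerset := by
    rintro _ ⟨e, he, rfl⟩
    obtain ⟨v, hv, a, ha, hae⟩ := hE he
    refine ⟨v, hv, ?_⟩
    rw [← hae, inv_ap]
    exact ha
  obtain ⟨k, hk, h1⟩ := h.ref x _ hE' (small_image _ hEc)
  refine ⟨g * k * g⁻¹, M.G.mul_mem (M.G.mul_mem hg hk) (M.G.inv_mem hg),
    fun v hv e he hev => ?_⟩
  obtain ⟨a, ha, rfl⟩ := hev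
  have h2 := h1 v hv a ⟨g a, he, inv_ap g a⟩ ha
  have h3 : (g * k * g⁻¹) (g a) = g (k a) := by
    rw [Equiv.Perm.mul_apply, Equiv.Perm.mul_apply, inv_ap]
  rw [h3]
  exact ⟨⟨k a, h2.1, rfl⟩, fun h4 => by rw [h2.2 h4]⟩

/-- The system over a face. -/
theorem link (h : ISys M A s) {r : Finset ι} (hr : r ⊆ s) :
    ISys M (fun t => A (r ∪ t)) (s \ r) := by
  have hsub : ∀ {t : Finset ι}, t ⊆ s \ r → r ∪ t ⊆ s := fun ht =>
    Finset.union_subset hr (ht.trans Finset.sdiff_subset)
  refine ⟨⟨down_powerset _, fun t ht => h.mem (hsub (Finset.mem_powerset.1 ht)),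
    fun t ht q hq => h.mono (hsub (Finset.mem_powerset.1 ht))
      (Finset.union_subset_union_right hq)⟩, ?_⟩
  intro x E hE hEc
  by_cases hx : x ∈ r
  · refine ⟨1, M.G.one_mem, fun v hv e he hev => ⟨?_, fun _ => rfl⟩⟩
    have h1 : x ∉ v := fun h2 => (Finset.mem_sdiff.1 (Finset.mem_powerset.1 hv h2)).2 hx
    rw [Finset.erase_eq_of_notMem h1]
    exact hev
  · have hE' : E ⊆ iun A s.powerset := by
      intro e he
      obtain ⟨v, hv, hev⟩ := hE he
      exact ⟨r ∪ v, Finset.mem_powerset.2 (hsub (Finset.mem_powerset.1 hv)), hev⟩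
    obtain ⟨g, hg, h1⟩ := h.ref x E hE' hEc
    refine ⟨g, hg, fun v hv e he hev => ?_⟩
    have h2 := h1 (r ∪ v) (Finset.mem_powerset.2 (hsub (Finset.mem_powerset.1 hv))) e he hev
    have h3 : (r ∪ v).erase x = r ∪ v.erase x := by
      rw [Finset.erase_union_distrib, Finset.erase_eq_of_notMem hx]
    rw [h3] at h2
    exact ⟨h2.1, fun h4 => h2.2 fun h5 => (Finset.mem_union.1 h5).elim hx h4⟩

end ISys

namespace Ext1

theorem insert_cong {c : ι} (hc : c ∉ S) {u : Finset ι} (hu : u ⊆ S)
    (h0 : ∀ t, t ⊆ S → A t = A' t) (h1 : ∀ u, u ⊂ S → A (insert c u) = A' (insert c u))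
    {r : Finset ι} (hr : r ⊂ insert c u) : A r = A' r := by
  rcases face_cases (fun h => hc (hu h)) hr with h2 | ⟨w, hw, rfl⟩
  · exact h0 r (h2.trans hu)
  · exact h1 w (lt_of_lt_of_le hw hu)

theorem congr (h : Ext1 M A S c) (h0 : ∀ t, t ⊆ S → A t = A' t) (hc : A {c} = A' {c})
    (h1 : ∀ u, u ⊂ S → A (insert c u) = A' (insert c u)) : Ext1 M A' S c := by
  have h2 := h0 ∅ (Finset.empty_subset S)
  refine ⟨h.sys.congr h0, h.notMem, ?_, ?_, ?_, fun u hu hu0 => ?_⟩
  · rw [← hc]
    exact h.memc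
  · rw [← hc, ← h2]
    exact h.base
  · rw [← hc, ← h2, ← h0 S (Finset.Subset.refl S)]
    exact h.ind
  · rw [← h1 u hu, ← ibd_congr fun r hr => insert_cong h.notMem hu.1 h0 h1 hr]
    exact h.atomic u hu hu0

theorem sub (h : Ext1 M A S c) {u : Finset ι} (hu : u ⊆ S) : Ext1 M A u c :=
  ⟨h.sys.sub hu, fun h1 => h.notMem (hu h1), h.memc, h.base,
    h.ind.mono Subset.rfl (h.sys.mono (Finset.Subset.refl S) hu),
    fun w hw hw0 => h.atomic w (lt_of_lt_of_le hw hu) hw0⟩

/-- All faces, with `A {c}` instead of the top if the system has dimension zero. -/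
theorem memu (h : Ext1 M A S c) {u : Finset ι} (hu : u ⊂ S) : A (insert c u) ∈ M.S := by
  rcases u.eq_empty_or_nonempty with rfl | h0
  · exact h.memc
  · exact (h.atomic u hu h0).mem

theorem monou (h : Ext1 M A S c) {u : Finset ι} (hu : u ⊂ S) {r : Finset ι}
    (hr : r ⊆ insert c u) : A r ⊆ A (insert c u) := by
  rcases eq_or_ne r (insert c u) with rfl | hne
  · exact Subset.rfl
  have hr' : r ⊂ insert c u := lt_of_le_of_ne hr hne
  rcases u.eq_empty_or_nonempty with rfl | h0
  · have h1 : r = ∅ := by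
      have h2 : r ⊂ {c} := hr'
      exact Finset.ssubset_singleton_iff.1 h2
    subst h1
    exact h.base
  · exact fun x hx => (h.atomic u hu h0).sub ⟨r, hr', hx⟩

/-- The proper faces. -/
theorem fam (h : Ext1 M A S c) : IFam M A (insert c S).ssubsets := by
  refine ⟨down_ssubsets (Finset.insert_nonempty c S), fun t ht => ?_, fun t ht r hr => ?_⟩
  · rcases face_cases h.notMem (Finset.mem_ssubsets.1 ht) with h1 | ⟨u, hu, rfl⟩
    · exact h.sys.mem h1
    · exact h.memu hu
  · rcases face_cases h.notMem (Finset.mem_ssubsets.1 ht) with h1 | ⟨u, hu, rfl⟩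
    · exact h.sys.mono h1 hr
    · exact h.monou hu hr

theorem steps (h : Ext1 M A S c) : Steps M A S.powerset (insert c S).ssubsets := by
  refine ⟨h.fam, down_powerset S, fun v hv => ?_, fun w hw hw' => ?_⟩
  · exact Finset.mem_ssubsets.2 (lt_of_le_of_lt (Finset.mem_powerset.1 hv)
      (Finset.ssubset_insert h.notMem))
  · rcases face_cases h.notMem (Finset.mem_ssubsets.1 hw) with h1 | ⟨u, hu, rfl⟩
    · exact absurd (Finset.mem_powerset.2 h1) hw'
    rcases u.eq_empty_or_nonempty with rfl | h0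
    · right
      refine ⟨c, rfl, h.ind.mono Subset.rfl ?_⟩
      rintro x ⟨v, hv, hx⟩
      obtain ⟨hv1, hv2⟩ := Finset.mem_filter.1 hv
      rcases face_cases h.notMem (Finset.mem_ssubsets.1 hv1) with h1 | ⟨u, hu', rfl⟩
      · exact h.sys.mono (Finset.Subset.refl S) h1 hx
      · exact absurd (Finset.mem_insert_self c u) hv2
    · exact Or.inl (h.atomic u hu h0)

theorem ref (hM : M.Calc) (h : Ext1 M A S c) : IRef M A (insert c S).ssubsets :=
  h.steps.ref hM h.sys.ref

theorem tv (hM : M.Calc) (h : Ext1 M A S c) {t : Finset ι} (ht : t ⊂ insert c S) :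
    M.TV (A t) (ibd A (insert c S)) := by
  have h1 := (h.ref hM).tv_face (down_ssubsets (Finset.insert_nonempty c S)) h.fam
    (Finset.mem_ssubsets.2 ht)
  rwa [iun_ssubsets] at h1

theorem bd_sub (h : Ext1 M A S c) : A S ⊆ ibd A (insert c S) :=
  fun _ hx => ⟨S, Finset.ssubset_insert h.notMem, hx⟩

/-- The system with its top. -/
theorem top (hM : M.Calc) (h : Ext1 M A S c)
    (hN : M.Atomic (A (insert c S)) (ibd A (insert c S))) : ISys M A (insert c S) := by
  have hfam : IFam M A (insert c S).powerset := by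
    refine ⟨down_powerset _, fun t ht => ?_, fun t ht r hr => ?_⟩
    · rcases eq_or_ne t (insert c S) with rfl | hne
      · exact hN.mem
      · exact h.fam.mem t (Finset.mem_ssubsets.2
          (lt_of_le_of_ne (Finset.mem_powerset.1 ht) hne))
    · rcases eq_or_ne t (insert c S) with rfl | hne
      · rcases eq_or_ne r (insert c S) with rfl | hne'
        · exact Subset.rfl
        · exact fun x hx => hN.sub ⟨r, lt_of_le_of_ne hr hne', hx⟩
      · exact h.fam.mono t (Finset.mem_ssubsets.2
          (lt_of_le_of_ne (Finset.mem_powerset.1 ht) hne)) r hr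
  refine ⟨hfam, ?_⟩
  have hst : Steps M A (insert c S).ssubsets (insert c S).powerset := by
    refine ⟨hfam, down_ssubsets (Finset.insert_nonempty c S), fun v hv =>
      Finset.mem_powerset.2 (Finset.mem_ssubsets.1 hv).1, fun w hw hw' => Or.inl ?_⟩
    have : w = insert c S := by
      by_contra hne
      exact hw' (Finset.mem_ssubsets.2 (lt_of_le_of_ne (Finset.mem_powerset.1 hw) hne))
    rw [this]
    exact hN
  exact hst.ref hM (h.ref hM)

/-- The face without the new direction is the only condition in dimension zero. -/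
theorem top' (hM : M.Calc) (h : Ext1 M A S c)
    (hN : S.Nonempty → M.Atomic (A (insert c S)) (ibd A (insert c S))) :
    ISys M A (insert c S) := by
  rcases S.eq_empty_or_nonempty with rfl | hS
  · have hfam : IFam M A (insert c (∅ : Finset ι)).powerset := by
      refine ⟨down_powerset _, fun t ht => ?_, fun t ht r hr => ?_⟩
      · rw [Finset.mem_powerset] at ht
        have ht' : t ⊆ {c} := ht
        rcases Finset.subset_singleton_iff.1 ht' with rfl | rfl
        · exact h.sys.mem (Finset.Subset.refl _)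
        · exact h.memc
      · rw [Finset.mem_powerset] at ht
        have ht' : t ⊆ {c} := ht
        rcases Finset.subset_singleton_iff.1 ht' with rfl | rfl
        · rw [Finset.subset_empty.1 hr]
        · rcases Finset.subset_singleton_iff.1 hr with rfl | rfl
          · exact h.base
          · exact Subset.rfl
    refine ⟨hfam, ?_⟩
    have hst : Steps M A (∅ : Finset ι).powerset (insert c (∅ : Finset ι)).powerset := by
      refine ⟨hfam, down_powerset _, Finset.powerset_mono.2 (Finset.empty_subset _),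
        fun w hw hw' => Or.inr ⟨c, ?_, ?_⟩⟩
      · rw [Finset.mem_powerset] at hw hw'
        have hw2 : w ⊆ {c} := hw
        rcases Finset.subset_singleton_iff.1 hw2 with rfl | rfl
        · exact absurd (Finset.Subset.refl _) hw'
        · rfl
      · rw [Finset.mem_powerset] at hw hw'
        have hw2 : w ⊆ {c} := hw
        rcases Finset.subset_singleton_iff.1 hw2 with rfl | rfl
        · exact absurd (Finset.Subset.refl _) hw'
        · refine h.ind.mono Subset.rfl ?_
          rintro x ⟨v, hv, hx⟩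
          obtain ⟨hv1, hv2⟩ := Finset.mem_filter.1 hv
          rw [Finset.mem_powerset] at hv1
          have hv3 : v ⊆ {c} := hv1
          rcases Finset.subset_singleton_iff.1 hv3 with rfl | rfl
          · exact hx
          · exact absurd (Finset.mem_singleton_self c) hv2
    exact hst.ref hM h.sys.ref
  · exact h.top hM (hN hS)

/-- A system with atomic faces in one direction. -/
theorem of_sys (h : ISys M A (insert c S)) (hc : c ∉ S)
    (hat : ∀ u, u ⊂ S → u.Nonempty → M.Atomic (A (insert c u)) (ibd A (insert c u))) :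
    Ext1 M A S c := by
  have h1 : S ⊆ insert c S := Finset.subset_insert c S
  have h2 : ({c} : Finset ι) ⊆ insert c S := Finset.singleton_subset_iff.2
    (Finset.mem_insert_self c S)
  refine ⟨h.sub h1, hc, h.mem h2, h.mono h2 (Finset.empty_subset _), ?_, hat⟩
  have h3 := h.ind h2 h1
  have h4 : {c} ∩ S = ∅ := by
    rw [Finset.singleton_inter_of_notMem hc]
  rwa [h4] at h3

/-- The isomorphisms of the faces are locally elementary on the boundary. -/
theorem le (hM : M.Calc) (h : Ext1 M A S c) (h' : Ext1 M A' S c) (f : C → C)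
    (hf : ∀ t, t ⊂ insert c S → ∃ g ∈ M.G, (∀ a ∈ A t, g a = f a) ∧ g '' A t = A' t) :
    M.LE f (ibd A (insert c S)) := by
  have hS : S ⊂ insert c S := Finset.ssubset_insert h.notMem
  have h1 := h.steps.le_iun (A' := A') hM h.sys.ref f (by
    rw [iun_powerset h.sys.fam]
    intro E hE hEc
    obtain ⟨g, hg, h1, -⟩ := hf S hS
    exact ⟨g, hg, fun a ha => h1 a (hE ha)⟩) (fun v hv => hf v (Finset.mem_ssubsets.1 hv)) (by
    intro y hy hy' _
    rcases face_cases h.notMem (Finset.mem_ssubsets.1 hy) with h2 | ⟨u, hu, h3⟩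
    · exact absurd (Finset.mem_powerset.2 h2) hy'
    · have h4 : y = c := by
        have h5 : c ∈ ({y} : Finset ι) := by
          rw [h3]
          exact Finset.mem_insert_self c u
        exact (Finset.mem_singleton.1 h5).symm
      subst h4
      refine h'.ind.mono Subset.rfl ?_
      rintro x ⟨v, hv, hx⟩
      obtain ⟨hv1, hv2⟩ := Finset.mem_filter.1 hv
      rcases face_cases h.notMem (Finset.mem_ssubsets.1 hv1) with h1 | ⟨w, hw, rfl⟩
      · exact h'.sys.mono (Finset.Subset.refl S) h1 hx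
      · exact absurd (Finset.mem_insert_self y w) hv2)
  rwa [iun_ssubsets] at h1

theorem image_ibd {t : Finset ι} {f : C → C}
    (hf : ∀ r, r ⊂ t → ∃ g ∈ M.G, (∀ a ∈ A r, g a = f a) ∧ g '' A r = A' r) :
    f '' ibd A t = ibd A' t := by
  ext x
  constructor
  · rintro ⟨a, ⟨r, hr, ha⟩, rfl⟩
    obtain ⟨g, -, h1, h2⟩ := hf r hr
    refine ⟨r, hr, ?_⟩
    rw [← h2, ← h1 a ha]
    exact mem_image_of_mem g ha
  · rintro ⟨r, hr, hx⟩
    obtain ⟨g, -, h1, h2⟩ := hf r hr
    rw [← h2] at hx
    obtain ⟨a, ha, rfl⟩ := hx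
    exact ⟨a, ⟨r, hr, ha⟩, (h1 a ha).symm⟩

/-- Uniqueness of the top. -/
theorem exists_iso (hM : M.Calc) (h : Ext1 M A S c) (h' : Ext1 M A' S c) (f : C → C)
    (hf : ∀ t, t ⊂ insert c S → ∃ g ∈ M.G, (∀ a ∈ A t, g a = f a) ∧ g '' A t = A' t)
    {N N' : Set C} (hN : M.Atomic N (ibd A (insert c S)))
    (hN' : M.Atomic N' (ibd A' (insert c S))) :
    ∃ g ∈ M.G, (∀ t, t ⊂ insert c S → ∀ a ∈ A t, g a = f a) ∧ g '' N = N' := by
  rw [← image_ibd hf] at hN'
  obtain ⟨g, hg, h1, h2⟩ := hN.exists_iso (h.le hM h' f hf) hN'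
  exact ⟨g, hg, fun t ht a ha => h1 a ⟨t, ht, ha⟩, h2⟩

end Ext1

end Vale.Agent.P307.R2.H533
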