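import Vale.Agent.P307.R2.H1.Avg
import Vale.Agent.P307.R2.H68.Shift

/-!
Uniform sequences of tuples in EM models, with the indices of every component in a given set.
-/

set_option linter.unusedSectionVars false

universe u

open FirstOrder Cardinal Set

namespace Vale.Agent.P307.R2.H533

open Vale.Agent.P307 Vale.Agent.P307.H304 Vale.Agent.P307.R2.H287 Vale.Agent.P307.R2.H1
  Vale.Agent.P307.R2.H806
  Language.Structure Language.Substructure

variable {L : Language.{u, u}} {K : AEC L} {ℓ : Cardinal.{u}} {t : Tpl K ℓ}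
  {I : Type u} [LinearOrder I]

/-- Uniform sequences of tuples in an EM model, with the indices of the `i`-th component in
`W i`. -/
def IsUnifW (E : EM t I) {X : Type u} [LinearOrder X] {ι : Type u} (W : ι → Set I)
    (a : X → ι → E.N) : Prop :=
  ∃ (s : ι → (exLang L t.Λ).Term (ULift.{u} ℕ)) (w : X → ι × ULift.{u} ℕ → I),
    (∀ x i, (s i).realize (fun k => E.c (w x (i, k))) = a x i) ∧ (∀ x p, w x p ∈ W p.1) ∧ Unif w

variable {E : EM t I} {X ι : Type u} [LinearOrder X] {W : ι → Set I} {a : X → ι → E.N}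

theorem IsUnifW.isUnif (h : IsUnifW E W a) : IsUnif E a := by
  obtain ⟨s, w, h1, -, h3⟩ := h
  refine ⟨fun i => (s i).relabel fun k => (i, k), w, fun x i => ?_, h3⟩
  rw [Language.Term.realize_relabel]
  exact h1 x i

theorem IsUnifW.comp {Y : Type u} [LinearOrder Y] (h : IsUnifW E W a) {σ : Y → X}
    (hσ : StrictMono σ) : IsUnifW E W fun y => a (σ y) := by
  obtain ⟨s, w, h1, h2, h3⟩ := h
  exact ⟨s, fun y => w (σ y), fun y i => h1 _ i, fun y p => h2 _ p, h3.comp hσ⟩

theorem IsUnifW.mem (h : IsUnifW E W a) (x : X) (i : ι) : a x i ∈ hull E (W i) := by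
  obtain ⟨s, w, h1, h2, -⟩ := h
  exact (mem_closure_image_iff E.c (W i) _).2 ⟨(s i).relabel fun k => ⟨w x (i, k), h2 x (i, k)⟩, by
    rw [Language.Term.realize_relabel, ← h1 x i]
    rfl⟩

/-- Elements of the hull of `V` are given by terms in countably many indices in `V`. -/
theorem exists_nat_term_in {V : Set I} (hV : V.Nonempty) {z : E.N} (hz : z ∈ hull E V) :
    ∃ (s : (exLang L t.Λ).Term (ULift.{u} ℕ)) (q : ULift.{u} ℕ → I),
      s.realize (fun k => E.c (q k)) = z ∧ ∀ k, q k ∈ V := by
  classical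
  obtain ⟨v₀, hv₀⟩ := hV
  obtain ⟨w, s, hw, hs⟩ := H68.exists_finset_term_of_mem E hz
  refine ⟨s.relabel fun d => ULift.up (w.equivFin d).1, fun k =>
    if h : k.down < w.card then (w.equivFin.symm ⟨k.down, h⟩).1 else v₀, ?_, fun k => ?_⟩
  · rw [Language.Term.realize_relabel, ← hs]
    congr 1
    funext d
    have h1 : (w.equivFin d).1 < w.card := (w.equivFin d).2
    change E.c (dite _ _ _) = E.c d
    rw [dif_pos h1]
    simp
  · by_cases h : k.down < w.card
    · simp only [dif_pos h]
      exact hw _ (w.equivFin.symm ⟨k.down, h⟩).2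
    · simp only [dif_neg h]
      exact hv₀

end Vale.Agent.P307.R2.H533
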